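import Vale.Agent.P200.Chain.Tower
import Mathlib.FieldTheory.IsAlgClosed.AlgebraicClosure

/-!
# Segments have the least shadows in every monotone box with at least three sides
-/

namespace Vale.Agent.P200.Chain

open Finset

noncomputable section

/-- The Clements–Lindström property of boxes. -/
theorem cl_box : ∀ (c : ℕ) (a : Fin c → ℕ), 3 ≤ c → (∀ i, 2 ≤ a i) → Monotone a → CL a := by
  intro c
  induction c with
  | zero => intro a h; omega
  | succ c ih =>
    intro a hc h2 hm
    rcases (show c = 2 ∨ 3 ≤ c by omega) with rfl | hc'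
    · exact cl_of_lexM (AlgebraicClosure ℚ) (fun i => two_pos.trans_le (h2 i))
        (lexM_three (h2 0) (hm (by decide)) (hm (by decide)))
    · obtain ⟨c, rfl⟩ : ∃ m, c = m + 1 := ⟨c - 1, by omega⟩
      have hcl0 : CL (facet 0 a) :=
        ih _ hc' (fun i => h2 _) fun i j hij => hm ((Fin.strictMono_succAbove 0).monotone hij)
      have hcll : CL (facet (Fin.last (c + 1)) a) :=
        ih _ hc' (fun i => h2 _) fun i j hij => hm ((Fin.strictMono_succAbove _).monotone hij)
      have hcap : a 0 - 1 ≤ ∑ i : Fin c, (a i.succ.castSucc - 1) := by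
        have h1 := single_le_sum (fun i _ => Nat.zero_le (a i.succ.castSucc - 1))
          (mem_univ (⟨0, by omega⟩ : Fin c))
        have h2 : a 0 ≤ a (Fin.castSucc (Fin.succ (⟨0, by omega⟩ : Fin c))) := hm (Fin.zero_le _)
        omega
      exact fun d T T' hup => step_box hcl0 hcll hcap hup

end

end Vale.Agent.P200.Chain
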