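import Vale.Agent.P200.Regular

/-!
# Growth at the degree of a last, large form

`G` is a one-dimensional complete intersection with Hilbert function `p` from degree `s` on,
`l` a linear nonzerodivisor on it, `φ` a further form of degree `d + 1 ≥ s`.
-/

namespace Vale.Agent.P200.Chain

open MvPolynomial Module

noncomputable section

variable {K : Type} [Field K] {n : ℕ}

theorem mem_of_forms_succ {k : ℕ} {p : Poly K n} (hp : p.IsHomogeneous (k + 1))
    (M : Submodule K (Poly K n))
    (h : ∀ i, ∀ q : Poly K n, q.IsHomogeneous k → X i * q ∈ M) : p ∈ M := by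
  classical
  rw [p.as_sum]
  refine Submodule.sum_mem _ fun e he => ?_
  have hdeg : e.degree = k + 1 := by
    have := hp (MvPolynomial.mem_support_iff.mp he)
    rw [Finsupp.degree_eq_weight_one]
    exact this
  obtain ⟨i, hi⟩ : ∃ i, 0 < e i := by
    by_contra hno
    push Not at hno
    rw [Finsupp.degree_eq_sum, Finset.sum_eq_zero fun i _ => Nat.le_zero.mp (hno i)] at hdeg
    omega
  have hle : Finsupp.single i 1 ≤ e := Finsupp.single_le_iff.mpr hi
  have hmon : monomial e (coeff e p) =
      X i * monomial (e - Finsupp.single i 1) (coeff e p) := by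
    rw [← pow_one (X i : Poly K n), X_pow_eq_monomial, monomial_mul, one_mul,
      add_tsub_cancel_of_le hle]
  rw [hmon]
  refine h i _ (isHomogeneous_monomial _ ?_)
  have h2 := congrArg Finsupp.degree (add_tsub_cancel_of_le hle)
  rw [map_add, Finsupp.degree_single] at h2
  omega

variable {G : Ideal (Poly K n)} {l : Poly K n} {W : Submodule K (Poly K n)} {d : ℕ}

/-- The sum of the piece of `G` and the shift of `W`. -/
def shift (G : Ideal (Poly K n)) (l : Poly K n) (W : Submodule K (Poly K n)) (d k : ℕ) :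
    Submodule K (Poly K n) :=
  part G (d + k) ⊔ W.map (mulL (l ^ k))

theorem pow_hom (hl : l.IsHomogeneous 1) (k : ℕ) : (l ^ k).IsHomogeneous k := by
  simpa using hl.pow k

theorem mul_mem_part {q g : Poly K n} {i j k : ℕ} (hq : q.IsHomogeneous i) (hg : g ∈ part G j)
    (hk : i + j = k) : q * g ∈ part G k :=
  ⟨G.mul_mem_left _ hg.1, hk ▸ hq.mul hg.2⟩

theorem finrank_shift_le (hl : l.IsHomogeneous 1) (hl0 : l ≠ 0) [FiniteDimensional K W]
    (hGW : part G d ≤ W) (k : ℕ) :
    finrank K (shift G l W d k) + finrank K (part G d) ≤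
      finrank K (part G (d + k)) + finrank K W := by
  have h := Submodule.finrank_sup_add_finrank_inf_eq (part G (d + k)) (W.map (mulL (l ^ k)))
  have hsub : (part G d).map (mulL (l ^ k)) ≤ part G (d + k) ⊓ W.map (mulL (l ^ k)) := by
    rintro _ ⟨g, hg, rfl⟩
    exact ⟨mul_mem_part (pow_hom hl k) hg (add_comm k d), g, hGW hg, rfl⟩
  have h' := Submodule.finrank_mono hsub
  rw [finrank_map_mulL (pow_ne_zero _ hl0)] at h h'
  change finrank K (part G (d + k) ⊔ W.map (mulL (l ^ k)) : Submodule K _) + _ ≤ _
  omega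

variable {J : Ideal (Poly K n)} {s p : ℕ} {φ : Poly K n}

/-- Multiplication by all linear forms keeps the piece of degree `d` within its shift. -/
def Stable (G J : Ideal (Poly K n)) (l : Poly K n) (d : ℕ) : Prop :=
  ∀ x : Poly K n, x.IsHomogeneous 1 → ∀ w ∈ part J d, x * w ∈ shift G l (part J d) d 1

theorem shift_mul {W : Submodule K (Poly K n)} (hl : l.IsHomogeneous 1) {k j : ℕ} {z : Poly K n}
    (hz : z ∈ shift G l W d k) : l ^ j * z ∈ shift G l W d (k + j) := by
  obtain ⟨g, hg, _, ⟨w, hw, rfl⟩, rfl⟩ := Submodule.mem_sup.mp hz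
  rw [mul_add]
  refine Submodule.add_mem_sup (mul_mem_part (pow_hom hl j) hg (by omega)) ⟨w, hw, ?_⟩
  simp only [mulL_apply]
  ring

theorem Stable.mul (hl : l.IsHomogeneous 1) (hs : Stable G J l d) :
    ∀ (k : ℕ) (q : Poly K n), q.IsHomogeneous k → ∀ w ∈ part J d,
      q * w ∈ shift G l (part J d) d k := by
  intro k
  induction k with
  | zero =>
    intro q hq w hw
    rw [totalDegree_eq_zero_iff_eq_C.mp (Nat.le_zero.mp hq.totalDegree_le), ← smul_eq_C_mul]
    refine Submodule.smul_mem _ _ (Submodule.mem_sup_right ⟨w, hw, ?_⟩)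
    simp
  | succ k ih =>
    intro q hq w hw
    let M : Submodule K (Poly K n) :=
      (shift G l (part J d) d (k + 1)).comap (LinearMap.mulRight K w)
    show q ∈ M
    refine mem_of_forms_succ hq M fun i r hr => ?_
    show X i * r * w ∈ shift G l (part J d) d (k + 1)
    obtain ⟨g, hg, _, ⟨u, hu, rfl⟩, he⟩ := Submodule.mem_sup.mp (ih r hr w hw)
    rw [mul_assoc, ← he, mul_add, mulL_apply, mul_left_comm]
    refine add_mem (Submodule.mem_sup_left
      (mul_mem_part (isHomogeneous_X K i) hg (by omega))) ?_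
    rw [add_comm k 1]
    exact shift_mul hl (hs _ (isHomogeneous_X K i) u hu)

/-- Everything in degree `d + 1 + s` comes from `G` and `φ`. -/
theorem forms_le_of_top (hG : Homog G) (hφ : φ.IsHomogeneous (d + 1))
    (h : hq (G ⊔ Ideal.span {φ}) (s + (d + 1)) = 0) {M : Submodule K (Poly K n)}
    (hGM : part G (s + (d + 1)) ≤ M) (hφM : ∀ q : Poly K n, q.IsHomogeneous s → φ * q ∈ M) :
    Forms K n (s + (d + 1)) ≤ M := by
  intro z hz
  have hz' : z ∈ part (G ⊔ Ideal.span {φ}) (s + (d + 1)) := ⟨hq_eq_zero_iff.mp h z hz, hz⟩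
  rw [part_sup_span hG hφ] at hz'
  refine sup_le hGM ?_ hz'
  rintro _ ⟨q, hq, rfl⟩
  exact hφM q hq

/-- A stable piece cannot hold `φ` in its shift. -/
theorem Stable.false_of_mem (hG : Homog G) (hl : l.IsHomogeneous 1) (hl0 : l ≠ 0)
    (hGJ : G ≤ J) (hφ : φ.IsHomogeneous (d + 1)) (hst : Stable G J l d)
    (hp : hq G (s + (d + 1)) = p) (hF : hq (G ⊔ Ideal.span {φ}) (s + (d + 1)) = 0)
    (hd : hq G d ≤ p) (hpos : 0 < hq J d) (hmem : φ ∈ shift G l (part J d) d 1) : False := by
  have hM : Forms K n (s + (d + 1)) ≤ shift G l (part J d) d (s + 1) := by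
    refine forms_le_of_top hG hφ hF ?_ fun q hq => ?_
    · rw [show s + (d + 1) = d + (s + 1) by omega]
      exact le_sup_left
    · obtain ⟨g, hg, _, ⟨w, hw, rfl⟩, he⟩ := Submodule.mem_sup.mp hmem
      rw [← he, add_mul, mulL_apply, mul_assoc, mul_comm g q, mul_comm w q]
      refine add_mem (Submodule.mem_sup_left (mul_mem_part hq hg (by omega))) ?_
      exact shift_mul hl (hst.mul hl s q hq w hw)
  haveI : FiniteDimensional K (shift G l (part J d) d (s + 1)) := by
    unfold shift; infer_instance
  have h1 := Submodule.finrank_mono hM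
  have h2 := finrank_shift_le hl hl0 (part_mono hGJ d) (s + 1)
  have a1 := hq_add G (s + (d + 1))
  have a2 := hq_add G d
  have a3 := hq_add J d
  rw [show d + (s + 1) = s + (d + 1) by omega] at h2
  omega

/-- In the socle degree case, no nonzero piece is stable. -/
theorem Stable.part_le (hG : Homog G) (hl : l.IsHomogeneous 1) (hz : NZD G l)
    (hns : ∀ i, i < s → NoSoc (G ⊔ Ideal.span {l}) i) (hd : d + 1 = s)
    (hGJ : G ≤ J) (hst : Stable G J l d) :
    ∀ i j, i + j = d → ∀ w : Poly K n, w.IsHomogeneous i → l ^ j * w ∈ part J d → w ∈ G := by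
  intro i
  induction i using Nat.strong_induction_on with
  | _ i ih =>
    intro j hij w hw hmem
    by_cases hwG : w ∈ G ⊔ Ideal.span {l}
    · rcases Nat.eq_zero_or_pos i with hi | hi
      · have hq0 := hq_sup_of_lt hG hl (show i < 1 by omega)
        have := part_eq_of_hq_eq (I := G) (J := G ⊔ Ideal.span {l}) le_sup_left hq0.ge
        have hw' : w ∈ part (G ⊔ Ideal.span {l}) i := ⟨hwG, hw⟩
        rw [← this] at hw'
        exact hw'.1
      · have hw' : w ∈ part (G ⊔ Ideal.span {l}) (i - 1 + 1) :=
          ⟨hwG, by rwa [Nat.sub_add_cancel hi]⟩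
        rw [part_sup_span hG hl] at hw'
        obtain ⟨g, hg, _, ⟨w1, hw1, rfl⟩, he⟩ := Submodule.mem_sup.mp hw'
        have hgd : g.IsHomogeneous i := Nat.sub_add_cancel hi ▸ hg.2
        have hgJ : l ^ j * g ∈ part J d :=
          ⟨hGJ (G.mul_mem_left _ hg.1), (by omega : j + i = d) ▸ (pow_hom hl j).mul hgd⟩
        have hw1G : w1 ∈ G := by
          refine ih (i - 1) (by omega) (j + 1) (by omega) w1 hw1 ?_
          have e : l ^ (j + 1) * w1 = l ^ j * w - l ^ j * g := by
            rw [← he, mulL_apply]; ring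
          rw [e]
          exact sub_mem hmem hgJ
        rw [← he]
        exact add_mem hg.1 (G.mul_mem_left _ hw1G)
    · exfalso
      obtain ⟨t, ht, htw⟩ := exists_top_mul hns (s - i) i (by omega) w hw hwG
      have h1 := hst.mul hl (s - i) t ht _ hmem
      obtain ⟨g, hg, _, ⟨u, hu, rfl⟩, he⟩ := Submodule.mem_sup.mp h1
      rw [mulL_apply, show s - i = j + 1 by omega] at he
      apply htw
      have h2 : t * w - l * u ∈ G := by
        have hpow : ∀ m : ℕ, ∀ z : Poly K n, l ^ m * z ∈ G → z ∈ G := by
          intro m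
          induction m with
          | zero => intro z hz'; simpa using hz'
          | succ m ihm => intro z hz'; exact ihm z (hz _ (by rwa [pow_succ', mul_assoc] at hz'))
        refine hpow j _ ?_
        have e : l ^ j * (t * w - l * u) = g := by
          rw [mul_sub, ← mul_assoc (l ^ j) l u, ← pow_succ]
          linear_combination -he
        rw [e]
        exact hg.1
      have e : w * t = (t * w - l * u) + l * u := by ring
      rw [e]
      exact Submodule.add_mem_sup h2 (Ideal.mul_mem_right _ _ (Ideal.mem_span_singleton_self _))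

/-- The filtration used when the piece is not stable. -/
def ladder (G : Ideal (Poly K n)) (l : Poly K n) (W : Submodule K (Poly K n)) (d : ℕ)
    (x v : Poly K n) (k : ℕ) : Submodule K (Poly K n) :=
  shift G l W d (k + 1) ⊔
    Submodule.span K (Set.range fun i : Fin (k + 1) => v * x ^ (i : ℕ) * l ^ (k - i))

theorem term_mem (x v : Poly K n) {k i : ℕ} (hi : i ≤ k) :
    v * x ^ i * l ^ (k - i) ∈ ladder G l W d x v k :=
  Submodule.mem_sup_right (Submodule.subset_span ⟨⟨i, by omega⟩, rfl⟩)

theorem ladder_le {x v : Poly K n} {k : ℕ} {M : Submodule K (Poly K n)}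
    (h1 : ∀ g ∈ part G (d + (k + 1)), g ∈ M) (h2 : ∀ w ∈ W, l ^ (k + 1) * w ∈ M)
    (h3 : ∀ i, i ≤ k → v * x ^ i * l ^ (k - i) ∈ M) : ladder G l W d x v k ≤ M := by
  refine sup_le (sup_le h1 ?_) (Submodule.span_le.mpr ?_)
  · rintro _ ⟨w, hw, rfl⟩
    exact h2 w hw
  · rintro _ ⟨i, rfl⟩
    exact h3 i (by omega)

theorem pow_mul_ladder (hl : l.IsHomogeneous 1) {x v : Poly K n} {k : ℕ} (j : ℕ) {z : Poly K n}
    (hz : z ∈ ladder G l W d x v k) : l ^ j * z ∈ ladder G l W d x v (k + j) := by
  let M := (ladder G l W d x v (k + j)).comap (mulL (l ^ j))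
  refine (ladder_le (M := M) ?_ ?_ ?_) hz
  · exact fun g hg => Submodule.mem_sup_left (Submodule.mem_sup_left
      (mul_mem_part (pow_hom hl j) hg (by omega)))
  · refine fun w hw => Submodule.mem_sup_left (Submodule.mem_sup_right ⟨w, hw, ?_⟩)
    simp only [mulL_apply]
    ring
  · intro i hi
    show l ^ j * (v * x ^ i * l ^ (k - i)) ∈ ladder G l W d x v (k + j)
    have e : l ^ j * (v * x ^ i * l ^ (k - i)) = v * x ^ i * l ^ (k + j - i) := by
      rw [show k + j - i = k - i + j by omega, pow_add]
      ring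
    rw [e]
    exact term_mem x v (by omega)

theorem x_mul_ladder (hl : l.IsHomogeneous 1) {x v : Poly K n} (hx : x.IsHomogeneous 1)
    (h0 : ∀ y : Poly K n, y.IsHomogeneous 1 → ∀ w ∈ W, y * w ∈ ladder G l W d x v 0)
    {k : ℕ} {z : Poly K n} (hz : z ∈ ladder G l W d x v k) :
    x * z ∈ ladder G l W d x v (k + 1) := by
  let M := (ladder G l W d x v (k + 1)).comap (mulL x)
  refine (ladder_le (M := M) ?_ ?_ ?_) hz
  · exact fun g hg => Submodule.mem_sup_left (Submodule.mem_sup_left
      (mul_mem_part hx hg (by omega)))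
  · intro w hw
    show x * (l ^ (k + 1) * w) ∈ ladder G l W d x v (k + 1)
    rw [mul_left_comm]
    have := pow_mul_ladder hl (k + 1) (h0 x hx w hw)
    rwa [zero_add] at this
  · intro i hi
    show x * (v * x ^ i * l ^ (k - i)) ∈ ladder G l W d x v (k + 1)
    have e : x * (v * x ^ i * l ^ (k - i)) = v * x ^ (i + 1) * l ^ (k + 1 - (i + 1)) := by
      rw [Nat.add_sub_add_right, pow_succ]
      ring
    rw [e]
    exact term_mem x v (by omega)

theorem forms_mul_ladder (hl : l.IsHomogeneous 1) {x w0 : Poly K n} (hx : x.IsHomogeneous 1)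
    (hw0 : w0 ∈ W)
    (h0 : ∀ y : Poly K n, y.IsHomogeneous 1 → ∀ w ∈ W, y * w ∈ ladder G l W d x (x * w0) 0) :
    ∀ (m : ℕ) (q : Poly K n), q.IsHomogeneous m → ∀ z ∈ ladder G l W d x (x * w0) 0,
      q * z ∈ ladder G l W d x (x * w0) m := by
  have hy : ∀ y : Poly K n, y.IsHomogeneous 1 → ∀ k, ∀ z ∈ ladder G l W d x (x * w0) k,
      y * z ∈ ladder G l W d x (x * w0) (k + 1) := by
    intro y hy k z hz
    let M := (ladder G l W d x (x * w0) (k + 1)).comap (mulL y)
    refine (ladder_le (M := M) ?_ ?_ ?_) hz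
    · exact fun g hg => Submodule.mem_sup_left (Submodule.mem_sup_left
        (mul_mem_part hy hg (by omega)))
    · intro w hw
      show y * (l ^ (k + 1) * w) ∈ ladder G l W d x (x * w0) (k + 1)
      rw [mul_left_comm]
      have := pow_mul_ladder hl (k + 1) (h0 y hy w hw)
      rwa [zero_add] at this
    · intro i hi
      show y * (x * w0 * x ^ i * l ^ (k - i)) ∈ ladder G l W d x (x * w0) (k + 1)
      have hstep : ∀ m, ∀ u ∈ ladder G l W d x (x * w0) (k - i + 1),
          x ^ m * u ∈ ladder G l W d x (x * w0) (k - i + 1 + m) := by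
        intro m
        induction m with
        | zero => intro u hu; simpa using hu
        | succ m ihm =>
          intro u hu
          rw [pow_succ', mul_assoc, ← Nat.add_assoc]
          exact x_mul_ladder hl hx h0 (ihm u hu)
      have h1 := pow_mul_ladder hl (k - i) (x_mul_ladder hl hx h0 (h0 y hy w0 hw0))
      rw [show 0 + 1 + (k - i) = k - i + 1 by omega] at h1
      have h2 := hstep i _ h1
      rw [show k - i + 1 + i = k + 1 by omega] at h2
      have e : y * (x * w0 * x ^ i * l ^ (k - i)) = x ^ i * (l ^ (k - i) * (x * (y * w0))) := by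
        ring
      rw [e]
      exact h2
  intro m
  induction m with
  | zero =>
    intro q hq z hz
    rw [totalDegree_eq_zero_iff_eq_C.mp (Nat.le_zero.mp hq.totalDegree_le), ← smul_eq_C_mul]
    exact Submodule.smul_mem _ _ hz
  | succ m ih =>
    intro q hq z hz
    let M := (ladder G l W d x (x * w0) (m + 1)).comap (LinearMap.mulRight K z)
    show q ∈ M
    refine mem_of_forms_succ hq M fun i r hr => ?_
    show X i * r * z ∈ ladder G l W d x (x * w0) (m + 1)
    rw [mul_assoc]
    exact hy _ (isHomogeneous_X K i) m _ (ih r hr z hz)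

/-- The growth bound at the degree of `φ`. -/
theorem junction (hG : Homog G) (hl : l.IsHomogeneous 1) (hl0 : l ≠ 0) (hz : NZD G l)
    (hns : ∀ i, i < s → NoSoc (G ⊔ Ideal.span {l}) i) (hGJ : G ≤ J)
    (hφ : φ.IsHomogeneous (d + 1)) (hφJ : φ ∈ J) (hp : hq G (s + (d + 1)) = p)
    (hp1 : hq G (d + 1) = p) (hF : hq (G ⊔ Ideal.span {φ}) (s + (d + 1)) = 0)
    (hd : hq G d = p ∨ (hq G d + 1 = p ∧ d + 1 = s))
    (hle : hq J d ≤ hq J (d + 1)) (hpos : 0 < hq J d) (hlt : hq J d < hq G d) :
    hq G d + 1 = p ∧ hq J (d + 1) = hq J d ∧ hq J d ≤ s := by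
  have hGW : part G d ≤ part J d := part_mono hGJ d
  haveI : FiniteDimensional K (shift G l (part J d) d 1) := by
    unfold shift; infer_instance
  have hT : shift G l (part J d) d 1 ≤ part J (d + 1) := by
    refine sup_le (part_mono hGJ _) ?_
    rintro _ ⟨w, hw, rfl⟩
    exact mul_mem_part (pow_hom hl 1) hw (add_comm 1 d)
  -- the exact dimension of the shift
  have hTdim : finrank K (part G (d + 1)) + finrank K (part J d) =
      finrank K (shift G l (part J d) d 1) + finrank K (part G d) := by
    refine le_antisymm ?_ (finrank_shift_le hl hl0 hGW 1)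
    have h := Submodule.finrank_sup_add_finrank_inf_eq (part G (d + 1))
      ((part J d).map (mulL (l ^ 1)))
    have hsub : part G (d + 1) ⊓ (part J d).map (mulL (l ^ 1)) ≤
        (part G d).map (mulL (l ^ 1)) := by
      rintro _ ⟨hg, w, hw, rfl⟩
      refine ⟨w, ⟨hz _ ?_, hw.2⟩, rfl⟩
      simpa using hg.1
    have h' := Submodule.finrank_mono hsub
    rw [finrank_map_mulL (pow_ne_zero _ hl0)] at h h'
    change _ ≤ finrank K (part G (d + 1) ⊔ (part J d).map (mulL (l ^ 1)) : Submodule K _) + _
    omega
  have a1 := hq_add G (d + 1)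
  have a2 := hq_add G d
  have a3 := hq_add J d
  have a4 := hq_add J (d + 1)
  by_cases hst : Stable G J l d
  · exfalso
    rcases hd with hd | ⟨-, hds⟩
    · refine hst.false_of_mem hG hl hl0 hGJ hφ hp hF hd.le hpos ?_
      have := Submodule.eq_of_le_of_finrank_le hT (by omega)
      rw [this]
      exact ⟨hφJ, hφ⟩
    · have hle' : part J d ≤ part G d := fun w hw =>
        ⟨hst.part_le hG hl hz hns hds hGJ d 0 (by omega) w hw.2 (by simpa using hw), hw.2⟩
      have := Submodule.finrank_mono hle'
      omega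
  · simp only [Stable] at hst
    push Not at hst
    obtain ⟨x, hx, w0, hw0, hv⟩ := hst
    have hvJ : x * w0 ∈ part J (d + 1) := mul_mem_part hx hw0 (add_comm 1 d)
    have hlt' : finrank K (shift G l (part J d) d 1) < finrank K (part J (d + 1)) :=
      Submodule.finrank_lt_finrank_of_lt (lt_of_le_of_ne hT fun he => hv (he ▸ hvJ))
    rcases hd with hd | ⟨hd, hds⟩
    · omega
    refine ⟨hd, by omega, ?_⟩
    set V := shift G l (part J d) d 1 ⊔ Submodule.span K {x * w0}
    have hV : part J (d + 1) ≤ V := by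
      have hVle : V ≤ part J (d + 1) :=
        sup_le hT ((Submodule.span_singleton_le_iff_mem _ _).mpr hvJ)
      haveI : FiniteDimensional K V := Submodule.finiteDimensional_of_le hVle
      refine (Submodule.eq_of_le_of_finrank_le hVle ?_).ge
      have : finrank K (shift G l (part J d) d 1) < finrank K V :=
        Submodule.finrank_lt_finrank_of_lt (lt_of_le_of_ne le_sup_left fun he =>
          hv (he ▸ Submodule.mem_sup_right (Submodule.mem_span_singleton_self _)))
      omega
    have hv0 : x * w0 ∈ ladder G l (part J d) d x (x * w0) 0 := by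
      have := term_mem (G := G) (l := l) (W := part J d) (d := d) x (x * w0) (le_refl 0)
      rwa [pow_zero, mul_one, Nat.sub_zero, pow_zero, mul_one] at this
    have hVlad : V ≤ ladder G l (part J d) d x (x * w0) 0 :=
      sup_le le_sup_left ((Submodule.span_singleton_le_iff_mem _ _).mpr hv0)
    have h0 : ∀ y : Poly K n, y.IsHomogeneous 1 → ∀ w ∈ part J d,
        y * w ∈ ladder G l (part J d) d x (x * w0) 0 := fun y hy w hw =>
      hVlad (hV (mul_mem_part hy hw (add_comm 1 d)))
    have hφ0 : φ ∈ ladder G l (part J d) d x (x * w0) 0 := hVlad (hV ⟨hφJ, hφ⟩)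
    have hφM : ∀ q : Poly K n, q.IsHomogeneous s →
        φ * q ∈ ladder G l (part J d) d x (x * w0) s := fun q hq => by
      rw [mul_comm φ q]
      exact forms_mul_ladder hl hx hw0 h0 s q hq φ hφ0
    have hGM : part G (s + (d + 1)) ≤ ladder G l (part J d) d x (x * w0) s := by
      rw [show s + (d + 1) = d + (s + 1) by omega]
      exact le_sup_left.trans le_sup_left
    have hM := forms_le_of_top hG hφ hF hGM hφM
    haveI : FiniteDimensional K (shift G l (part J d) d (s + 1)) := by
      unfold shift; infer_instance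
    haveI : FiniteDimensional K (ladder G l (part J d) d x (x * w0) s) := by
      unfold ladder
      haveI : FiniteDimensional K (Submodule.span K (Set.range fun i : Fin (s + 1) =>
        x * w0 * x ^ (i : ℕ) * l ^ (s - i))) :=
        FiniteDimensional.span_of_finite K (Set.finite_range _)
      infer_instance
    have h1 := Submodule.finrank_mono hM
    have h2 : finrank K (ladder G l (part J d) d x (x * w0) s) ≤
        finrank K (shift G l (part J d) d (s + 1)) + (s + 1) := by
      haveI : FiniteDimensional K (Submodule.span K (Set.range fun i : Fin (s + 1) =>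
        x * w0 * x ^ (i : ℕ) * l ^ (s - i))) :=
        FiniteDimensional.span_of_finite K (Set.finite_range _)
      refine le_trans (Submodule.finrank_add_le_finrank_add_finrank _ _) ?_
      have := finrank_range_le_card (R := K)
        (b := fun i : Fin (s + 1) => x * w0 * x ^ (i : ℕ) * l ^ (s - i))
      rw [Fintype.card_fin] at this
      exact Nat.add_le_add_left this _
    have h3 := finrank_shift_le hl hl0 hGW (s + 1)
    rw [show d + (s + 1) = s + (d + 1) by omega] at h3
    have a5 := hq_add G (s + (d + 1))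
    omega

end

end Vale.Agent.P200.Chain
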