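import Mathlib

/-!
# Segments in a box with one long side

The Clements–Lindström property passes from the two facets of a box to the box itself.
-/

namespace Vale.Agent.P200.Chain

open Finset

open scoped Classical

noncomputable section

variable {c : ℕ}

/-- Exponents of degree `d` in a box. -/
def Box (a : Fin c → ℕ) (d : ℕ) : Finset (Fin c → ℕ) :=
  (Fintype.piFinset fun i => range (a i)).filter fun e => ∑ i, e i = d

theorem mem_box {a : Fin c → ℕ} {d : ℕ} {e : Fin c → ℕ} :
    e ∈ Box a d ↔ (∀ i, e i < a i) ∧ ∑ i, e i = d := by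
  simp [Box, Fintype.mem_piFinset]

/-- The number of smaller members of the box in the lexicographic order. -/
def lrk (a : Fin c → ℕ) (d : ℕ) (e : Fin c → ℕ) : ℕ :=
  ((Box a d).filter fun f => toLex f < toLex e).card

theorem lrk_mono {a : Fin c → ℕ} {d : ℕ} {e f : Fin c → ℕ} (h : toLex f ≤ toLex e) :
    lrk a d f ≤ lrk a d e :=
  card_le_card fun g hg => by
    simp only [mem_filter] at hg ⊢
    exact ⟨hg.1, hg.2.trans_le h⟩

theorem lrk_strict {a : Fin c → ℕ} {d : ℕ} {e f : Fin c → ℕ} (hf : f ∈ Box a d)
    (h : toLex f < toLex e) : lrk a d f < lrk a d e := by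
  refine card_lt_card ((ssubset_iff_of_subset fun g hg => ?_).mpr ⟨f, ?_, ?_⟩)
  · simp only [mem_filter] at hg ⊢
    exact ⟨hg.1, hg.2.trans h⟩
  · exact mem_filter.mpr ⟨hf, h⟩
  · exact fun hm => lt_irrefl _ (mem_filter.mp hm).2

theorem lrk_lt {a : Fin c → ℕ} {d : ℕ} {e : Fin c → ℕ} (he : e ∈ Box a d) :
    lrk a d e < (Box a d).card :=
  card_lt_card ((ssubset_iff_of_subset (filter_subset _ _)).mpr ⟨e, he, fun hm => lt_irrefl _ (mem_filter.mp hm).2⟩)

theorem card_lrk_lt {a : Fin c → ℕ} {d h : ℕ} (hh : h ≤ (Box a d).card) :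
    ((Box a d).filter fun e => lrk a d e < h).card = h := by
  have hinj : Set.InjOn (lrk a d) (Box a d : Set (Fin c → ℕ)) := by
    intro p hp q hq e
    rcases lt_trichotomy (toLex p) (toLex q) with h' | h' | h'
    · exact absurd e (lrk_strict hp h').ne
    · exact toLex_inj.mp h'
    · exact absurd e (lrk_strict hq h').ne'
  have himg : (Box a d).image (lrk a d) = range (Box a d).card := by
    refine eq_of_subset_of_card_le ?_ ?_
    · intro x hx
      obtain ⟨p, hp, rfl⟩ := mem_image.mp hx
      exact mem_range.mpr (lrk_lt hp)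
    · rw [card_range, card_image_of_injOn hinj]
  have e : ((Box a d).filter fun p => lrk a d p < h).image (lrk a d) = range h := by
    rw [← filter_image (p := fun x => x < h), himg]
    ext x
    simp only [mem_filter, mem_range]
    omega
  have h1 := congrArg Finset.card e
  rw [card_image_of_injOn (hinj.mono (filter_subset _ _)), card_range] at h1
  exact h1

/-- The greatest `n` members. -/
def top (a : Fin c → ℕ) (d n : ℕ) : Finset (Fin c → ℕ) :=
  (Box a d).filter fun e => (Box a d).card - n ≤ lrk a d e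

theorem card_top {a : Fin c → ℕ} {d n : ℕ} (hn : n ≤ (Box a d).card) :
    (top a d n).card = n := by
  have h1 := card_lrk_lt (a := a) (d := d) (h := (Box a d).card - n) (Nat.sub_le _ _)
  have h2 := card_filter_add_card_filter_not (s := Box a d)
    (p := fun e => lrk a d e < (Box a d).card - n)
  simp only [not_lt] at h2
  simp only [top]
  omega

theorem sum_le_top {a : Fin c → ℕ} {d : ℕ} {S : Finset (Fin c → ℕ)} (hS : S ⊆ Box a d)
    (w : (Fin c → ℕ) → ℕ) (hw : ∀ f ∈ Box a d, ∀ g ∈ Box a d, toLex f < toLex g → w f < w g) :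
    ∑ f ∈ S, w f ≤ ∑ f ∈ top a d S.card, w f ∧
      (S ≠ top a d S.card → ∑ f ∈ S, w f < ∑ f ∈ top a d S.card, w f) := by
  set T := top a d S.card
  have hcard : T.card = S.card := card_top (card_le_card hS)
  suffices h : S ≠ T → ∑ f ∈ S, w f < ∑ f ∈ T, w f by
    refine ⟨?_, h⟩
    rcases eq_or_ne S T with he | he
    · exact (congrArg (fun X => ∑ f ∈ X, w f) he).le
    · exact (h he).le
  intro hne
  have hc : (S \ T).card = (T \ S).card := card_sdiff_comm hcard.symm
  have hnz : (S \ T).Nonempty := by
    rw [nonempty_iff_ne_empty, Ne, sdiff_eq_empty_iff_subset]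
    exact fun hsub => hne (eq_of_subset_of_card_le hsub hcard.le)
  have hnz' : (T \ S).Nonempty := card_pos.mp (hc ▸ card_pos.mpr hnz)
  have hlt : ∀ f ∈ S \ T, ∀ g ∈ T \ S, w f < w g := by
    intro f hf g hg
    simp only [mem_sdiff, T, top, mem_filter] at hf hg
    refine hw f (hS hf.1) g hg.1.1 ?_
    by_contra hge
    have := lrk_mono (a := a) (d := d) (le_of_not_gt hge)
    have := hf.2
    push Not at this
    have := this (hS hf.1)
    omega
  obtain ⟨f0, hf0, hmax⟩ := exists_max_image (S \ T) w hnz
  have h1 : ∑ f ∈ S \ T, w f ≤ (S \ T).card • w f0 := sum_le_card_nsmul _ _ _ hmax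
  have h2 : (T \ S).card • (w f0 + 1) ≤ ∑ g ∈ T \ S, w g :=
    card_nsmul_le_sum _ _ _ fun g hg => hlt f0 hf0 g hg
  have h3 := sum_inter_add_sum_sdiff S T w
  have h4 := sum_inter_add_sum_sdiff T S w
  rw [inter_comm] at h4
  have := card_pos.mpr hnz'
  rw [smul_eq_mul] at h1 h2
  rw [hc] at h1
  rw [Nat.mul_succ] at h2
  omega

/-- One step of the upper-set property of segment complements of sizes `h` and `m`. -/
def Step (a : Fin c → ℕ) (d h m : ℕ) : Prop :=
  ∀ e ∈ Box a d, ∀ i, e + Pi.single i 1 ∈ Box a (d + 1) → h ≤ lrk a d e →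
    m ≤ lrk a (d + 1) (e + Pi.single i 1)

theorem Step.mono {a : Fin c → ℕ} {d h h' m m' : ℕ} (hs : Step a d h m) (hh : h ≤ h')
    (hm : m' ≤ m) : Step a d h' m' :=
  fun e he i hi hr => hm.trans (hs e he i hi (hh.trans hr))

/-- A pair closed under multiplication by the variables. -/
def Up (a : Fin c → ℕ) (d : ℕ) (T T' : Finset (Fin c → ℕ)) : Prop :=
  T ⊆ Box a d ∧ T' ⊆ Box a (d + 1) ∧
    ∀ e ∈ T, ∀ i, e + Pi.single i 1 ∈ Box a (d + 1) → e + Pi.single i 1 ∈ T'

/-- The compression property. -/
def CL (a : Fin c → ℕ) : Prop :=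
  ∀ d T T', Up a d T T' → Step a d ((Box a d).card - T.card) ((Box a (d + 1)).card - T'.card)

theorem lt_of_first {e f : Fin c → ℕ} (i : Fin c) (h : ∀ j, j < i → e j = f j) (hi : e i < f i) :
    toLex e < toLex f :=
  ⟨i, h, hi⟩

theorem lt_exists {e f : Fin c → ℕ} (h : toLex e < toLex f) :
    ∃ i, (∀ j, j < i → e j = f j) ∧ e i < f i := h

/-- Every member above a multiple of `e` is a multiple of some member above `e`. -/
theorem exists_pred {a : Fin c → ℕ} {d : ℕ} {e f : Fin c → ℕ} {i : Fin c} (he : e ∈ Box a d)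
    (hf : f ∈ Box a (d + 1)) (h : toLex (e + Pi.single i 1) ≤ toLex f) :
    ∃ g ∈ Box a d, ∃ j, g + Pi.single j 1 = f ∧ toLex e ≤ toLex g := by
  rcases h.eq_or_lt with h | h
  · exact ⟨e, he, i, toLex_inj.mp h, le_rfl⟩
  rw [mem_box] at he hf
  have hne : (univ.filter fun j => 0 < f j).Nonempty := by
    rw [nonempty_iff_ne_empty]
    intro h0
    have : ∑ j, f j = 0 := sum_eq_zero fun j _ => by
      by_contra hj
      have hm : j ∈ univ.filter fun j => 0 < f j :=
        mem_filter.mpr ⟨mem_univ j, Nat.pos_of_ne_zero hj⟩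
      rw [h0] at hm
      exact notMem_empty j hm
    omega
  obtain ⟨p, hp, hmax⟩ : ∃ p, 0 < f p ∧ ∀ j, p < j → f j = 0 := by
    refine ⟨(univ.filter fun j => 0 < f j).max' hne, (mem_filter.mp (max'_mem _ hne)).2,
      fun j hj => ?_⟩
    by_contra h0
    have hm : j ∈ univ.filter fun j => 0 < f j :=
      mem_filter.mpr ⟨mem_univ j, Nat.pos_of_ne_zero h0⟩
    have := le_max' _ j hm
    exact absurd hj (not_lt.mpr this)
  set g := Function.update f p (f p - 1) with hg
  have hgf : g + Pi.single p 1 = f := by
    ext j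
    by_cases hj : j = p
    · subst hj; simp [g]; omega
    · simp [g, hj]
  have hgbox : g ∈ Box a d := by
    rw [mem_box]
    refine ⟨fun j => ?_, ?_⟩
    · by_cases hj : j = p
      · subst hj; have := hf.1 j; simp [g]; omega
      · simpa [g, hj] using hf.1 j
    · have h1 := congrArg (fun u : Fin c → ℕ => ∑ j, u j) hgf
      simp [sum_add_distrib] at h1
      omega
  refine ⟨g, hgbox, p, hgf, ?_⟩
  obtain ⟨q, hq, hqlt⟩ := lt_exists h
  simp only [Pi.add_apply] at hq hqlt
  have hqp : q ≤ p := by
    by_contra hc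
    have := hmax q (not_le.mp hc)
    omega
  have hval : ∀ j, j < p → g j = f j := fun j hj => by simp [g, hj.ne]
  by_cases hiq : i < q
  · refine (lt_of_first i (fun j hj => ?_) ?_).le
    · have h1 := hq j (hj.trans hiq)
      rw [Pi.single_eq_of_ne hj.ne, add_zero] at h1
      rw [hval j (lt_of_lt_of_le (hj.trans hiq) hqp), h1]
    · have h1 := hq i hiq
      rw [Pi.single_eq_same] at h1
      rw [hval i (lt_of_lt_of_le hiq hqp), ← h1]
      omega
  have heq : ∀ j, j < q → e j = g j := fun j hj => by
    have h1 := hq j hj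
    rw [Pi.single_eq_of_ne (by rintro rfl; exact hiq hj), add_zero] at h1
    rw [hval j (lt_of_lt_of_le hj hqp), h1]
  rcases hqp.lt_or_eq with hlt | rfl
  · refine (lt_of_first q heq ?_).le
    rw [hval q hlt]
    exact lt_of_le_of_lt (Nat.le_add_right _ _) hqlt
  · rcases lt_or_eq_of_le (show e q ≤ g q by simp [g]; omega) with h1 | h1
    · exact (lt_of_first q heq h1).le
    · have hsum := (mem_box.mp hgbox).2
      have hle : ∀ j ∈ univ, g j ≤ e j := by
        intro j _
        rcases lt_trichotomy j q with hj | hj | hj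
        · exact (heq j hj).ge
        · exact hj ▸ h1.ge
        · have := hmax j hj
          simp [g, hj.ne', this]
      have := (sum_eq_sum_iff_of_le hle).mp (by omega)
      exact le_of_eq (congrArg toLex (funext fun j => (this j (mem_univ j)).symm))

/-- A segment with a closed shadow gives a step. -/
theorem step_of_top {a : Fin c → ℕ} {d : ℕ} {T T' : Finset (Fin c → ℕ)} (h : Up a d T T')
    (hT : T = top a d T.card) :
    Step a d ((Box a d).card - T.card) ((Box a (d + 1)).card - T'.card) := by
  intro e he i hi hr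
  set w := e + Pi.single i 1
  have hsub : ((Box a (d + 1)).filter fun f => ¬ toLex f < toLex w) ⊆ T' := by
    intro f hf
    rw [mem_filter] at hf
    obtain ⟨g, hg, j, rfl, hle⟩ := exists_pred he hf.1 (le_of_not_gt hf.2)
    refine h.2.2 g ?_ j hf.1
    rw [hT]
    exact mem_filter.mpr ⟨hg, hr.trans (lrk_mono hle)⟩
  have h1 := card_le_card hsub
  have h2 := card_filter_add_card_filter_not (s := Box a (d + 1))
    (p := fun f => toLex f < toLex w)
  change _ ≤ lrk a (d + 1) w
  simp only [lrk]
  omega

theorem exists_le_sum {ι : Type*} [Fintype ι] [DecidableEq ι] (v : ι → ℕ) :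
    ∀ k, k ≤ ∑ i, v i → ∃ y : ι → ℕ, (∀ i, y i ≤ v i) ∧ ∑ i, y i = k := by
  intro k
  induction k with
  | zero => exact fun _ => ⟨0, fun i => Nat.zero_le _, by simp⟩
  | succ k ih =>
    intro hk
    obtain ⟨y, hy, hsum⟩ := ih (by omega)
    obtain ⟨j, hj⟩ : ∃ j, y j < v j := by
      by_contra hc
      push Not at hc
      have := sum_le_sum (s := univ) fun i _ => hc i
      omega
    refine ⟨y + Pi.single j 1, fun i => ?_, ?_⟩
    · by_cases hi : i = j
      · subst hi; simp; omega
      · simpa [hi] using hy i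
    · simp [sum_add_distrib, hsum]

theorem insertNth_lt_iff (k : Fin (c + 1)) (t : ℕ) {f g : Fin c → ℕ} :
    toLex (k.insertNth t f : Fin (c + 1) → ℕ) < toLex (k.insertNth t g : Fin (c + 1) → ℕ) ↔
      toLex f < toLex g := by
  constructor
  · intro h
    obtain ⟨i, hi, hlt⟩ := lt_exists h
    rcases Fin.eq_self_or_eq_succAbove k i with rfl | ⟨j, rfl⟩
    · simp at hlt
    · refine lt_of_first j (fun m hm => ?_) (by simpa using hlt)
      simpa using hi _ (k.strictMono_succAbove hm)
  · intro h
    obtain ⟨j, hj, hlt⟩ := lt_exists h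
    refine lt_of_first (k.succAbove j) (fun i hi => ?_) (by simpa using hlt)
    rcases Fin.eq_self_or_eq_succAbove k i with rfl | ⟨m, rfl⟩
    · simp
    · simpa using hj m (k.strictMono_succAbove.lt_iff_lt.mp hi)

variable {a : Fin (c + 1) → ℕ} {d : ℕ} (k : Fin (c + 1))

/-- The facet of a box. -/
def facet (a : Fin (c + 1) → ℕ) : Fin c → ℕ := fun i => a (k.succAbove i)

theorem insertNth_mem_box {t : ℕ} {f : Fin c → ℕ} :
    (k.insertNth t f : Fin (c + 1) → ℕ) ∈ Box a d ↔
      t < a k ∧ t ≤ d ∧ f ∈ Box (facet k a) (d - t) := by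
  rw [mem_box, mem_box, Fin.forall_iff_succAbove k, Fin.sum_univ_succAbove _ k]
  simp only [Fin.insertNth_apply_same, Fin.insertNth_apply_succAbove, facet]
  constructor
  · rintro ⟨⟨h1, h2⟩, h3⟩
    exact ⟨h1, by omega, h2, by omega⟩
  · rintro ⟨h1, h2, h3, h4⟩
    exact ⟨⟨h1, h3⟩, by omega⟩

theorem removeNth_mem_box {e : Fin (c + 1) → ℕ} (he : e ∈ Box a d) :
    e k < a k ∧ e k ≤ d ∧ k.removeNth e ∈ Box (facet k a) (d - e k) := by
  have := (insertNth_mem_box (a := a) (d := d) k (t := e k) (f := k.removeNth e)).mp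
    (by rwa [Fin.insertNth_self_removeNth])
  exact this

/-- The part of a set over a value of one coordinate. -/
def slice (a : Fin (c + 1) → ℕ) (d : ℕ) (T : Finset (Fin (c + 1) → ℕ)) (t : ℕ) :
    Finset (Fin c → ℕ) :=
  (Box (facet k a) (d - t)).filter fun f => (k.insertNth t f : Fin (c + 1) → ℕ) ∈ T

theorem slice_subset (T : Finset (Fin (c + 1) → ℕ)) (t : ℕ) :
    slice k a d T t ⊆ Box (facet k a) (d - t) :=
  filter_subset _ _

/-- Compression in one direction. -/
def comp (a : Fin (c + 1) → ℕ) (d : ℕ) (T : Finset (Fin (c + 1) → ℕ)) :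
    Finset (Fin (c + 1) → ℕ) :=
  (Box a d).filter fun e =>
    k.removeNth e ∈ top (facet k a) (d - e k) (slice k a d T (e k)).card

theorem sum_slices {T : Finset (Fin (c + 1) → ℕ)} (hT : T ⊆ Box a d)
    (w : (Fin (c + 1) → ℕ) → ℕ) :
    ∑ e ∈ T, w e = ∑ t ∈ range (min (a k) (d + 1)),
      ∑ f ∈ slice k a d T t, w (k.insertNth t f) := by
  rw [Finset.sum_sigma']
  refine sum_nbij' (fun e => ⟨e k, k.removeNth e⟩) (fun x => k.insertNth x.1 x.2) ?_ ?_ ?_ ?_ ?_
  · intro e he
    obtain ⟨h1, h2, h3⟩ := removeNth_mem_box k (hT he)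
    simp only [mem_coe, mem_sigma, mem_range, slice, mem_filter, Fin.insertNth_self_removeNth]
    exact ⟨by omega, h3, he⟩
  · rintro ⟨t, f⟩ hx
    simp only [mem_coe, mem_sigma, slice, mem_filter] at hx
    exact hx.2.2
  · intro e _
    exact Fin.insertNth_self_removeNth k e
  · rintro ⟨t, f⟩ _
    simp
  · intro e _
    simp only [Fin.insertNth_self_removeNth]

theorem slice_comp {T : Finset (Fin (c + 1) → ℕ)} {t : ℕ}
    (ht : t < min (a k) (d + 1)) :
    slice k a d (comp k a d T) t = top (facet k a) (d - t) (slice k a d T t).card := by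
  ext f
  rw [slice, mem_filter, comp, mem_filter, insertNth_mem_box, Fin.insertNth_apply_same,
    Fin.removeNth_insertNth]
  constructor
  · exact fun h => h.2.2
  · intro h
    have hb := (mem_filter.mp h).1
    exact ⟨hb, ⟨by omega, by omega, hb⟩, h⟩

theorem card_comp {T : Finset (Fin (c + 1) → ℕ)} (hT : T ⊆ Box a d) :
    (comp k a d T).card = T.card := by
  rw [card_eq_sum_ones, card_eq_sum_ones T, sum_slices k (T := comp k a d T) (filter_subset _ _),
    sum_slices k hT]
  refine sum_congr rfl fun t ht => ?_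
  rw [← card_eq_sum_ones, ← card_eq_sum_ones, show slice k a d (comp k a d T) t = _ from
    slice_comp k (mem_range.mp ht), card_top (card_le_card (slice_subset k T t))]

theorem up_comp (hCL : CL (facet k a)) {T T' : Finset (Fin (c + 1) → ℕ)} (h : Up a d T T') :
    Up a d (comp k a d T) (comp k a (d + 1) T') := by
  refine ⟨filter_subset _ _, filter_subset _ _, fun e he i hi => mem_filter.mpr ⟨hi, ?_⟩⟩
  obtain ⟨heb, her⟩ := mem_filter.mp he
  obtain ⟨h1, h2, h3⟩ := removeNth_mem_box k heb
  rcases Fin.eq_self_or_eq_succAbove k i with rfl | ⟨j, rfl⟩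
  · have hsub : slice i a d T (e i) ⊆ slice i a (d + 1) T' (e i + 1) := by
      intro f hf
      simp only [slice, mem_filter] at hf ⊢
      have heq : (i.insertNth (e i) f : Fin (c + 1) → ℕ) + Pi.single i 1 =
          i.insertNth (e i + 1) f := by
        ext m
        rcases Fin.eq_self_or_eq_succAbove i m with rfl | ⟨m, rfl⟩
        · simp
        · simp [Fin.succAbove_ne i m]
      refine ⟨by rw [Nat.add_sub_add_right]; exact hf.1, heq ▸ h.2.2 _ hf.2 i ?_⟩
      rw [heq, insertNth_mem_box]
      have hlt := (mem_box.mp hi).1 i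
      simp only [Pi.add_apply, Pi.single_eq_same] at hlt
      exact ⟨hlt, by omega, by rw [Nat.add_sub_add_right]; exact hf.1⟩
    have hrem : i.removeNth (e + Pi.single i 1) = i.removeNth e := by
      ext m
      simp [Fin.removeNth, Fin.succAbove_ne i m]
    simp only [Pi.add_apply, Pi.single_eq_same, hrem, Nat.add_sub_add_right]
    simp only [top, mem_filter] at her ⊢
    refine ⟨h3, le_trans ?_ her.2⟩
    have := card_le_card hsub
    omega
  · have hval : (e + Pi.single (k.succAbove j) 1 : Fin (c + 1) → ℕ) k = e k := by simp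
    have hrem : k.removeNth (e + Pi.single (k.succAbove j) 1) =
        k.removeNth e + Pi.single j 1 := by
      ext m
      simp [Fin.removeNth, Pi.single_apply, Fin.succAbove_right_inj]
    obtain ⟨-, -, hb⟩ := removeNth_mem_box k hi
    rw [hval, hrem, show d + 1 - e k = d - e k + 1 by omega] at hb ⊢
    have hup : Up (facet k a) (d - e k) (slice k a d T (e k)) (slice k a (d + 1) T' (e k)) := by
      refine ⟨filter_subset _ _, ?_, fun f hf m hm => ?_⟩
      · rw [show d - e k + 1 = d + 1 - e k by omega]; exact filter_subset _ _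
      · simp only [slice, mem_filter] at hf ⊢
        have heq : (k.insertNth (e k) f : Fin (c + 1) → ℕ) + Pi.single (k.succAbove m) 1 =
            k.insertNth (e k) (f + Pi.single m 1) := by
          ext x
          rcases Fin.eq_self_or_eq_succAbove k x with rfl | ⟨x, rfl⟩
          · simp
          · simp [Pi.single_apply, Fin.succAbove_right_inj]
        rw [show d + 1 - e k = d - e k + 1 by omega]
        refine ⟨hm, heq ▸ h.2.2 _ hf.2 _ ?_⟩
        rw [heq, insertNth_mem_box]
        exact ⟨h1, by omega, by rwa [show d + 1 - e k = d - e k + 1 by omega]⟩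
    simp only [top, mem_filter] at her ⊢
    exact ⟨hb, hCL _ _ _ hup _ h3 j hb her.2⟩

/-- The weight used to choose among pairs. -/
def wt (a : Fin c → ℕ) (d : ℕ) (T : Finset (Fin c → ℕ)) : ℕ := ∑ e ∈ T, lrk a d e

/-- A pair of greatest weight among those of the same size is compressed. -/
theorem slice_closed {T T' : Finset (Fin (c + 1) → ℕ)} (hCL : CL (facet k a))
    (h : Up a d T T')
    (hmax : ∀ S S', Up a d S S' → S.card = T.card → S'.card ≤ T'.card → wt a d S ≤ wt a d T)
    {e f : Fin (c + 1) → ℕ} (he : e ∈ T) (hf : f ∈ Box a d) (hk : e k = f k)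
    (hlt : toLex e < toLex f) : f ∈ T := by
  by_contra hfT
  obtain ⟨h1, h2, h3⟩ := removeNth_mem_box k (h.1 he)
  obtain ⟨-, -, h3'⟩ := removeNth_mem_box k hf
  rw [← hk] at h3'
  have hw : ∀ t < min (a k) (d + 1), ∀ u ∈ Box (facet k a) (d - t),
      ∀ v ∈ Box (facet k a) (d - t), toLex u < toLex v →
        lrk a d (k.insertNth t u) < lrk a d (k.insertNth t v) := fun t ht u hu v _ huv =>
    lrk_strict ((insertNth_mem_box k).mpr ⟨by omega, by omega, hu⟩) ((insertNth_lt_iff k t).mpr huv)
  have hlt' : wt a d T < wt a d (comp k a d T) := by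
    simp only [wt]
    rw [sum_slices k h.1, sum_slices k (T := comp k a d T) (filter_subset _ _)]
    refine sum_lt_sum (fun t ht => ?_) ⟨e k, mem_range.mpr (by omega), ?_⟩
    · have ht' := mem_range.mp ht
      rw [show slice k a d (comp k a d T) t = _ from slice_comp k ht']
      exact (sum_le_top (slice_subset k T t) (fun u => lrk a d (k.insertNth t u)) (hw t ht')).1
    · have ht' : e k < min (a k) (d + 1) := by omega
      rw [show slice k a d (comp k a d T) (e k) = _ from slice_comp k ht']
      refine (sum_le_top (slice_subset k T (e k)) (fun u => lrk a d (k.insertNth (e k) u))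
        (hw _ ht')).2 fun hS => hfT ?_
      have hlt'' : toLex (k.removeNth e) < toLex (k.removeNth f) := by
        rw [← insertNth_lt_iff k (e k), Fin.insertNth_self_removeNth]
        conv_rhs => rw [hk, Fin.insertNth_self_removeNth]
        exact hlt
      have hem : k.removeNth e ∈ slice k a d T (e k) := by
        simp [slice, h3, he, Fin.insertNth_self_removeNth]
      rw [hS] at hem
      have hfm : k.removeNth f ∈ top (facet k a) (d - e k) (slice k a d T (e k)).card :=
        mem_filter.mpr ⟨h3', (mem_filter.mp hem).2.trans (lrk_mono hlt''.le)⟩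
      rw [← hS] at hfm
      have := (mem_filter.mp hfm).2
      rwa [hk, Fin.insertNth_self_removeNth] at this
  exact hlt'.not_ge (hmax _ _ (up_comp k hCL h) (card_comp k h.1) (card_comp k h.2.1).le)

/-- If two exponents of the same degree compare off the last coordinate, they compare. -/
theorem toLex_le_of_init {a : Fin (c + 1) → ℕ} {d : ℕ} {y v : Fin (c + 1) → ℕ}
    (hy : y ∈ Box a d) (hv : v ∈ Box a d) (h : ∀ i : Fin c, y i.castSucc ≤ v i.castSucc) :
    toLex y ≤ toLex v := by
  set s := univ.filter fun i : Fin c => y i.castSucc < v i.castSucc with hs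
  by_cases hne : s.Nonempty
  · obtain ⟨i0, hi0, hmin⟩ := exists_min_image s (fun i => i) hne
    simp only [hs, mem_filter, mem_univ, true_and] at hi0 hmin
    refine (lt_of_first i0.castSucc (fun j hj => ?_) hi0).le
    obtain ⟨j, rfl⟩ : ∃ m : Fin c, m.castSucc = j :=
      ⟨⟨j.1, lt_trans (Fin.lt_def.mp hj) i0.2⟩, rfl⟩
    refine le_antisymm (h j) ?_
    by_contra hlt
    exact absurd (Fin.castSucc_lt_castSucc_iff.mp hj) (not_lt.mpr (hmin j (not_le.mp hlt)))
  · have heq : ∀ i : Fin c, y i.castSucc = v i.castSucc := fun i => by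
      refine le_antisymm (h i) ?_
      by_contra hlt
      exact hne ⟨i, mem_filter.mpr ⟨mem_univ _, not_le.mp hlt⟩⟩
    have h1 := (mem_box.mp hy).2
    have h2 := (mem_box.mp hv).2
    rw [Fin.sum_univ_castSucc, sum_congr rfl fun i _ => heq i] at h1
    rw [Fin.sum_univ_castSucc] at h2
    refine le_of_eq (congrArg toLex (funext fun i => ?_))
    refine Fin.lastCases ?_ heq i
    omega

/-- Compression: two facets with segment shadows give the box segment shadows. -/
theorem step_box {c : ℕ} {a : Fin (c + 2) → ℕ} (h0 : CL (facet 0 a))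
    (hl : CL (facet (Fin.last (c + 1)) a))
    (hcap : a 0 - 1 ≤ ∑ i : Fin c, (a i.succ.castSucc - 1)) {d : ℕ}
    {T₀ T₀' : Finset (Fin (c + 2) → ℕ)} (h : Up a d T₀ T₀') :
    Step a d ((Box a d).card - T₀.card) ((Box a (d + 1)).card - T₀'.card) := by
  obtain ⟨T, hT, hbest⟩ := exists_max_image
    ((Box a d).powerset.filter fun S => S.card = T₀.card ∧ ∃ S', Up a d S S' ∧ S'.card ≤ T₀'.card)
    (wt a d) ⟨T₀, mem_filter.mpr ⟨mem_powerset.mpr h.1, rfl, T₀', h, le_rfl⟩⟩
  obtain ⟨-, hcard, T', hup, hcard'⟩ := mem_filter.mp hT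
  have hmax : ∀ S S', Up a d S S' → S.card = T.card → S'.card ≤ T'.card →
      wt a d S ≤ wt a d T := fun S S' hS h1 h2 =>
    hbest S (mem_filter.mpr ⟨mem_powerset.mpr hS.1, h1.trans hcard, S', hS, h2.trans hcard'⟩)
  suffices hseg : T = top a d T.card from
    (step_of_top hup hseg).mono (by omega) (by omega)
  by_contra hne
  have hnT : (Box a d \ T).Nonempty := by
    rw [nonempty_iff_ne_empty, Ne, sdiff_eq_empty_iff_subset]
    intro hsub
    refine hne (subset_antisymm hup.1 hsub |>.trans ?_)
    rw [subset_antisymm hup.1 hsub]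
    exact (filter_true_of_mem fun x _ => by omega).symm
  obtain ⟨v, hv, hvmax⟩ := exists_max_image (Box a d \ T) (fun e => toLex e) hnT
  rw [mem_sdiff] at hv
  have habove : ∀ f ∈ Box a d, toLex v < toLex f → f ∈ T := fun f hf hlt => by
    by_contra hfT
    exact (hvmax f (mem_sdiff.mpr ⟨hf, hfT⟩)).not_gt hlt
  have hTne : T.Nonempty := by
    rw [nonempty_iff_ne_empty]
    intro he
    refine hne ?_
    rw [he, card_empty]
    exact (filter_false_of_mem fun x hx => by have := lrk_lt hx; omega).symm
  obtain ⟨u, hu, humin⟩ := exists_min_image T (fun e => toLex e) hTne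
  have huv : toLex u < toLex v := by
    rcases lt_trichotomy (toLex u) (toLex v) with h1 | h1 | h1
    · exact h1
    · exact absurd (toLex_inj.mp h1 ▸ hu) hv.2
    · refine absurd ?_ hne
      have h2 : ∀ f ∈ Box a d, f ∈ T ↔ toLex v < toLex f := fun f hf =>
        ⟨fun hfT => h1.trans_le (humin f hfT), habove f hf⟩
      have hN : (Box a d).card - T.card = lrk a d v + 1 := by
        have h3 : (Box a d).filter (fun f => f ∉ T) =
            insert v ((Box a d).filter fun f => toLex f < toLex v) := by
          ext f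
          simp only [mem_filter, mem_insert]
          constructor
          · rintro ⟨hf, hfT⟩
            rcases lt_trichotomy (toLex f) (toLex v) with h4 | h4 | h4
            · exact Or.inr ⟨hf, h4⟩
            · exact Or.inl (toLex_inj.mp h4)
            · exact absurd ((h2 f hf).mpr h4) hfT
          · rintro (rfl | ⟨hf, h4⟩)
            · exact hv
            · exact ⟨hf, fun hfT => lt_asymm h4 ((h2 f hf).mp hfT)⟩
        have h4 := congrArg Finset.card h3
        have hnm : v ∉ (Box a d).filter fun f => toLex f < toLex v := fun hm =>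
          lt_irrefl _ (mem_filter.mp hm).2
        rw [card_insert_of_notMem hnm] at h4
        have h5 := card_filter_add_card_filter_not (s := Box a d) (p := fun f => f ∈ T)
        rw [filter_mem_eq_inter, inter_eq_right.mpr hup.1] at h5
        change _ = lrk a d v + 1 at h4
        omega
      ext f
      simp only [top, mem_filter]
      constructor
      · intro hf
        refine ⟨hup.1 hf, ?_⟩
        rw [hN]
        exact lrk_strict hv.1 ((h2 f (hup.1 hf)).mp hf)
      · rintro ⟨hf, h6⟩
        rw [hN] at h6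
        refine habove f hf ?_
        by_contra hle
        have := lrk_mono (a := a) (d := d) (not_lt.mp hle)
        omega
  have hu' := mem_box.mp (hup.1 hu)
  have hv' := mem_box.mp hv.1
  have h00 : u 0 < v 0 := by
    obtain ⟨i, hi, hlt⟩ := lt_exists huv
    rcases eq_or_ne i 0 with rfl | hi0
    · exact hlt
    · exact absurd (slice_closed 0 h0 hup hmax hu hv.1 (hi 0 (Fin.pos_iff_ne_zero.mpr hi0)) huv)
        hv.2
  set L := Fin.last (c + 1) with hL
  have hvu : u L < v L := by
    by_contra hvu
    have hvlev : v 0 + v L ≤ d := by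
      have := Finset.sum_le_sum_of_subset (f := v) (subset_univ ({0, L} : Finset (Fin (c + 2))))
      rw [sum_pair (Fin.last_pos.ne), hv'.2] at this
      exact this
    obtain ⟨w, hw, hw0, hwL, hwv⟩ : ∃ w ∈ T, w 0 = u 0 ∧ v 0 + w L ≤ d ∧ v L ≤ w L := by
      by_cases hlev : v 0 + u L ≤ d
      · exact ⟨u, hu, rfl, hlev, not_lt.mp hvu⟩
      set mid : Fin c → ℕ := fun i => u i.succ.castSucc
      have hsum : u 0 + ∑ i, mid i + u L = d := by
        rw [← hu'.2, Fin.sum_univ_castSucc, Fin.sum_univ_succ]
        rfl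
      have hvsum : v 0 ≤ d := hv'.2 ▸ single_le_sum (fun i _ => Nat.zero_le _) (mem_univ 0)
      have hv0 := hv'.1 0
      have hmidle : ∑ i, mid i ≤ ∑ i : Fin c, (a i.succ.castSucc - 1) :=
        sum_le_sum fun i _ => by have := hu'.1 i.succ.castSucc; simp only [mid]; omega
      obtain ⟨y, hy, hysum⟩ := exists_le_sum (fun i => a i.succ.castSucc - 1 - mid i)
        (v 0 + u L - d) (by
          rw [sum_tsub_distrib _ fun i _ => by
            have := hu'.1 i.succ.castSucc; simp only [mid]; omega]
          omega)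
      set w : Fin (c + 2) → ℕ := Fin.snoc (Fin.cons (u 0) (fun i => mid i + y i) : Fin (c + 1) → ℕ)
        (d - v 0)
      have hw0 : w 0 = u 0 := by
        change w (Fin.castSucc 0) = _
        simp [w]
      have hwm : ∀ i : Fin c, w i.succ.castSucc = mid i + y i := fun i => by
        simp only [w, Fin.snoc_castSucc, Fin.cons_succ]
      have hwl : w L = d - v 0 := by simp [w, L]
      have hwb : w ∈ Box a d := by
        rw [mem_box]
        refine ⟨fun i => ?_, ?_⟩
        · refine Fin.lastCases ?_ (fun i => ?_) i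
          · change w L < a L; rw [hwl]; have := hu'.1 L; omega
          · refine Fin.cases ?_ (fun i => ?_) i
            · exact hw0 ▸ hu'.1 0
            · rw [hwm]; have := hy i; have := hu'.1 i.succ.castSucc; simp only [mid] at *; omega
        · rw [Fin.sum_univ_castSucc, Fin.sum_univ_succ]
          simp only [hwm]
          rw [show w (Fin.castSucc 0) = u 0 from hw0, show w (Fin.last (c + 1)) = d - v 0 from hwl,
            sum_add_distrib, hysum]
          omega
      have hle : toLex u ≤ toLex w := toLex_le_of_init (hup.1 hu) hwb fun i => by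
        refine Fin.cases ?_ (fun i => ?_) i
        · exact hw0.ge
        · rw [hwm]; simp [mid]
      refine ⟨w, ?_, hw0, by omega, by omega⟩
      rcases hle.eq_or_lt with h1 | h1
      · exact toLex_inj.mp h1 ▸ hu
      · exact slice_closed 0 h0 hup hmax hu hwb hw0.symm h1
    have hw' := mem_box.mp (hup.1 hw)
    have hsum : v 0 + ∑ i : Fin c, v i.succ.castSucc + v L = d := by
      have h1 := hv'.2
      rw [Fin.sum_univ_castSucc, Fin.sum_univ_succ] at h1
      change _ + _ + v L = d at h1
      rw [show v (Fin.castSucc 0) = v 0 from rfl] at h1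
      omega
    obtain ⟨y, hy, hysum⟩ := exists_le_sum (fun i : Fin c => v i.succ.castSucc) (d - v 0 - w L)
      (by omega)
    set z : Fin (c + 2) → ℕ := Fin.snoc (Fin.cons (v 0) y : Fin (c + 1) → ℕ) (w L)
    have hz0 : z 0 = v 0 := by
      change z (Fin.castSucc 0) = _
      simp [z]
    have hzm : ∀ i : Fin c, z i.succ.castSucc = y i := fun i => by
      simp only [z, Fin.snoc_castSucc, Fin.cons_succ]
    have hzl : z L = w L := by simp [z, L]
    have hzb : z ∈ Box a d := by
      rw [mem_box]
      refine ⟨fun i => ?_, ?_⟩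
      · refine Fin.lastCases ?_ (fun i => ?_) i
        · exact hzl ▸ hw'.1 L
        · refine Fin.cases ?_ (fun i => ?_) i
          · exact hz0 ▸ hv'.1 0
          · rw [hzm]; exact lt_of_le_of_lt (hy i) (hv'.1 _)
      · rw [Fin.sum_univ_castSucc, Fin.sum_univ_succ]
        simp only [hzm]
        rw [show z (Fin.castSucc 0) = v 0 from hz0, show z (Fin.last (c + 1)) = w L from hzl,
          hysum]
        omega
    have hzT : z ∈ T := slice_closed L hl hup hmax hw hzb hzl.symm
      (lt_of_first 0 (fun j hj => absurd hj (Fin.not_lt_zero _)) (by omega))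
    rcases (toLex_le_of_init hzb hv.1 fun i => by
      refine Fin.cases ?_ (fun i => ?_) i
      · exact hz0.le
      · rw [hzm]; exact hy i).eq_or_lt with h1 | h1
    · exact hv.2 (toLex_inj.mp h1 ▸ hzT)
    · exact hv.2 (slice_closed 0 h0 hup hmax hzT hv.1 hz0 h1)
  -- exchange
  have hbox_add : ∀ e ∈ Box a d, e L + 1 < a L → e + Pi.single L 1 ∈ Box a (d + 1) := by
    intro e he hL1
    obtain ⟨h1, h2⟩ := mem_box.mp he
    rw [mem_box]
    refine ⟨fun i => ?_, by simp [sum_add_distrib, h2]⟩
    by_cases hi : i = L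
    · subst hi
      simp; omega
    · simpa [hi] using h1 i
  have huT' : u + Pi.single L 1 ∈ T' := hup.2.2 u hu L (hbox_add u (hup.1 hu) (lt_of_lt_of_le (Nat.succ_lt_succ hvu) (hv'.1 L)))
  set S := insert v (T.erase u)
  set S' := (insert (v + Pi.single L 1) (T'.erase (u + Pi.single L 1))).filter
    fun e => e ∈ Box a (d + 1)
  have hold : ∀ e ∈ T, e ≠ u → ∀ i, e + Pi.single i 1 ∈ Box a (d + 1) →
      e + Pi.single i 1 ∈ T'.erase (u + Pi.single L 1) := by
    intro e he heu i hi
    refine mem_erase.mpr ⟨fun heq => ?_, hup.2.2 e he i hi⟩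
    rcases eq_or_ne i L with rfl | hiL
    · exact heu (add_right_cancel heq)
    · refine (humin e he).not_gt (lt_of_first i (fun j hj => ?_) ?_)
      · have := congrFun heq j
        have hjL : j ≠ L := (lt_of_lt_of_le hj (Fin.le_last i)).ne
        simpa [hj.ne, hjL] using this
      · have := congrFun heq i
        simp [hiL] at this
        omega
  have hS : Up a d S S' := by
    refine ⟨insert_subset hv.1 ((erase_subset _ _).trans hup.1),
      fun e he => (mem_filter.mp he).2, fun e he i hi => mem_filter.mpr ⟨?_, hi⟩⟩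
    rcases mem_insert.mp he with rfl | he
    · rcases eq_or_ne i L with rfl | hiL
      · exact mem_insert_self _ _
      · set f : Fin (c + 2) → ℕ := Function.update (e + Pi.single i 1) L (e L - 1)
        have hfe : f + Pi.single L 1 = e + Pi.single i 1 := by
          ext j
          by_cases hj : j = L
          · subst hj; simp [f, hiL.symm]; omega
          · simp [f, hj]
        have hfb : f ∈ Box a d := by
          rw [mem_box]
          refine ⟨fun j => ?_, ?_⟩
          · by_cases hj : j = L
            · subst hj; have := hv'.1 L; simp [f]; omega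
            · simpa [f, hj] using (mem_box.mp hi).1 j
          · have h1 := congrArg (fun x : Fin (c + 2) → ℕ => ∑ j, x j) hfe
            simp [sum_add_distrib] at h1
            omega
        have hlt : toLex e < toLex f := lt_of_first i (fun j hj => by
          have := (lt_of_lt_of_le hj (Fin.le_last i)).ne
          simp [f, this, hj.ne, hL]) (by simp [f, hiL])
        rw [← hfe]
        refine mem_insert_of_mem (hold f (habove f hfb hlt) ?_ L (hfe ▸ hi))
        exact fun h1 => lt_asymm huv (h1 ▸ hlt)
    · obtain ⟨h1, h2⟩ := mem_erase.mp he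
      exact mem_insert_of_mem (hold e h2 h1 i hi)
  have hne' : v ∉ T.erase u := fun h1 => hv.2 (mem_of_mem_erase h1)
  have hSc : S.card = T.card := by
    rw [card_insert_of_notMem hne', card_erase_add_one hu]
  have hSc' : S'.card ≤ T'.card :=
    (card_filter_le _ _).trans ((card_insert_le _ _).trans (card_erase_add_one huT').le)
  have h1 := hmax S S' hS hSc hSc'
  simp only [wt, S, sum_insert hne'] at h1
  rw [← add_sum_erase T _ hu] at h1
  have := lrk_strict (a := a) (d := d) (hup.1 hu) huv
  omega

end

end Vale.Agent.P200.Chain
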