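import Vale.Agent.P200.Model
import Vale.Agent.P200.Chain.Lex

/-!
# Segment models and their symmetry
-/

namespace Vale.Agent.P200.Chain

open MvPolynomial Module Finset

open scoped Classical

noncomputable section

variable {K : Type} [Field K] {c : ℕ} {a : Fin c → ℕ}

/-- Hilbert functions over a regular sequence of degrees `a` follow the segments of the box. -/
def LexM (K : Type) [Field K] {c : ℕ} (a : Fin c → ℕ) : Prop :=
  ∀ L : List (GForm K c), L.map GForm.k = List.ofFn a → RegL ⊥ L →
    ∀ J : Ideal (Poly K c), Homog J → (∀ f ∈ L, f.g ∈ J) →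
      ∀ d, Step a d (hq J d) (hq J (d + 1))

theorem degree_eq_sum_fun {n : ℕ} (e : Fin n →₀ ℕ) : e.degree = ∑ i, e i :=
  Finsupp.degree_eq_sum e

/-- A count of exponents as a count of functions. -/
theorem card_degSet_box {n d : ℕ} (P : (Fin n →₀ ℕ) → Prop) (T : Finset (Fin n → ℕ))
    (h : ∀ f : Fin n → ℕ, f ∈ T ↔ ∑ i, f i = d ∧ P (Finsupp.equivFunOnFinite.symm f)) :
    ((degSet n d).filter P).card = T.card := by
  refine card_nbij' (fun e => ⇑e) (fun f => Finsupp.equivFunOnFinite.symm f) ?_ ?_ ?_ ?_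
  · intro e he
    simp only [mem_coe, mem_filter, mem_degSet, degree_eq_sum_fun] at he
    rw [mem_coe, h]
    refine ⟨he.1, ?_⟩
    convert he.2
    exact Finsupp.equivFunOnFinite.symm_apply_apply e
  · intro f hf
    rw [mem_coe, h] at hf
    simp only [mem_coe, mem_filter, mem_degSet, degree_eq_sum_fun]
    exact ⟨by simpa using hf.1, hf.2⟩
  · intro e _
    exact Finsupp.equivFunOnFinite.symm_apply_apply e
  · intro f _
    ext i
    simp

theorem hq_box {L : List (GForm K c)} (hk : L.map GForm.k = List.ofFn a) (hreg : RegL ⊥ L)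
    (d : ℕ) : hq (idl ⊥ L) d = (Box a d).card := by
  rw [hq_regL hreg (List.ofFn fun i => (i, a i)) (by rw [hk, List.map_ofFn]; rfl)
    (by rw [List.map_ofFn]; exact List.nodup_ofFn.mpr fun i j h => h)]
  have key : ∀ f : Fin c → ℕ, f ∈ Box a d ↔ ∑ i, f i = d ∧
      ∀ p ∈ List.ofFn fun i => (i, a i),
        (Finsupp.equivFunOnFinite.symm f : Fin c →₀ ℕ) p.1 < p.2 := fun f => by
    simp [mem_box, List.mem_ofFn, and_comm]
  convert card_degSet_box (fun e : Fin c →₀ ℕ =>
    ∀ p ∈ List.ofFn fun i => (i, a i), e p.1 < p.2) (Box a d) key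

theorem hq_le_card {L : List (GForm K c)} (hk : L.map GForm.k = List.ofFn a) (hreg : RegL ⊥ L)
    {J : Ideal (Poly K c)} (hmem : ∀ f ∈ L, f.g ∈ J) (d : ℕ) :
    hq J d ≤ (Box a d).card :=
  hq_box hk hreg d ▸ hq_anti (idl_le bot_le hmem) d

/-- A segment model implies the compression property. -/
theorem cl_of_lexM (K : Type) [Field K] (ha : ∀ i, 0 < a i) (h : LexM K a) : CL a := by
  intro d T T' hup
  let S : Set (Fin c →₀ ℕ) := {e | (∃ i, a i ≤ e i) ∨ ∃ f ∈ T, ∀ i, f i ≤ e i}
  have hS : IsUpperSet S := by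
    intro e e' hle he
    rcases he with ⟨i, hi⟩ | ⟨f, hf, hfe⟩
    · exact Or.inl ⟨i, hi.trans (hle i)⟩
    · exact Or.inr ⟨f, hf, fun i => (hfe i).trans (hle i)⟩
  set l := List.ofFn fun i => (i, a i) with hl
  have hpos : ∀ p ∈ l, 0 < p.2 := by
    intro p hp
    obtain ⟨i, rfl⟩ := List.mem_ofFn.mp hp
    exact ha i
  obtain ⟨hreg, -⟩ := regL_powForms (K := K) l hpos
    (by rw [hl, List.map_ofFn]; exact List.nodup_ofFn.mpr fun i j h => h)
  have hmem : ∀ f ∈ powForms (K := K) l hpos, f.g ∈ monIdeal K S hS := by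
    intro f hf
    obtain ⟨p, hp, rfl⟩ := List.mem_pmap.mp hf
    obtain ⟨i, rfl⟩ := List.mem_ofFn.mp hp
    exact X_pow_mem_monIdeal hS (Or.inl ⟨i, by simp⟩)
  have hs := h (powForms (K := K) l hpos) (by rw [powForms_degrees, hl, List.map_ofFn]; rfl) hreg
    (monIdeal K S hS) (Homog.monIdeal hS) hmem d
  refine hs.mono ?_ ?_
  · rw [hq_monIdeal, ← card_sdiff_of_subset hup.1]
    refine card_le_card_of_injOn (fun e => ⇑e) (fun e he => ?_) fun e _ e' _ h => DFunLike.ext' h
    simp only [mem_coe, mem_filter, mem_degSet, degree_eq_sum_fun] at he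
    simp only [mem_coe, mem_sdiff, mem_box]
    refine ⟨⟨fun i => ?_, he.1⟩, fun hT => he.2 (Or.inr ⟨_, hT, fun i => le_rfl⟩)⟩
    by_contra hi
    exact he.2 (Or.inl ⟨i, not_lt.mp hi⟩)
  · rw [hq_monIdeal, ← card_sdiff_of_subset hup.2.1]
    refine card_le_card_of_injOn (fun f => Finsupp.equivFunOnFinite.symm f) (fun f hf => ?_)
      fun f _ g _ h => Finsupp.equivFunOnFinite.symm.injective h
    simp only [mem_coe, mem_sdiff, mem_box] at hf
    simp only [mem_coe, mem_filter, mem_degSet, degree_eq_sum_fun]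
    refine ⟨by simpa using hf.1.2, ?_⟩
    rintro (⟨i, hi⟩ | ⟨g, hg, hgf⟩)
    · have := hf.1.1 i
      simp at hi
      omega
    · have hgf' : ∀ i, g i ≤ f i := fun i => by simpa using hgf i
      have hgsum := (mem_box.mp (hup.1 hg)).2
      obtain ⟨i, hi⟩ : ∃ i, g i < f i := by
        by_contra hno
        push Not at hno
        have := sum_le_sum (s := univ) fun i _ => hno i
        omega
      have hle : ∀ j ∈ univ, (g + Pi.single i 1 : Fin c → ℕ) j ≤ f j := by
        intro j _
        by_cases hj : j = i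
        · subst hj; simp; omega
        · simpa [hj] using hgf' j
      have heq := (sum_eq_sum_iff_of_le hle).mp (by simp [sum_add_distrib]; omega)
      have e : g + Pi.single i 1 = f := funext fun j => heq j (mem_univ j)
      exact hf.2 (e ▸ hup.2.2 g hg i (e ▸ mem_box.mpr hf.1))

/-- The reflection of the box. -/
def rev (a e : Fin c → ℕ) : Fin c → ℕ := fun i => a i - 1 - e i

theorem rev_mem {d d' : ℕ} (h : d + d' = ∑ i, (a i - 1)) {e : Fin c → ℕ} (he : e ∈ Box a d) :
    rev a e ∈ Box a d' := by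
  rw [mem_box] at he ⊢
  refine ⟨fun i => by have := he.1 i; simp only [rev]; omega, ?_⟩
  simp only [rev]
  rw [sum_tsub_distrib _ fun i _ => by have := he.1 i; omega]
  omega

theorem rev_rev {d : ℕ} {e : Fin c → ℕ} (he : e ∈ Box a d) : rev a (rev a e) = e :=
  funext fun i => by have := (mem_box.mp he).1 i; simp only [rev]; omega

theorem card_box_rev {d d' : ℕ} (h : d + d' = ∑ i, (a i - 1)) :
    (Box a d).card = (Box a d').card :=
  card_nbij' (rev a) (rev a) (fun _ he => rev_mem h he)
    (fun _ he => rev_mem (by omega) he) (fun _ he => rev_rev he) (fun _ he => rev_rev he)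

theorem rev_lt {d : ℕ} {e f : Fin c → ℕ} (hf : f ∈ Box a d) (h : toLex e < toLex f) :
    toLex (rev a f) < toLex (rev a e) := by
  obtain ⟨i, hi, hlt⟩ := lt_exists h
  refine lt_of_first i (fun j hj => by simp only [rev, hi j hj]) ?_
  have := (mem_box.mp hf).1 i
  simp only [rev]
  omega

theorem lrk_rev {d d' : ℕ} (h : d + d' = ∑ i, (a i - 1)) {e : Fin c → ℕ} (he : e ∈ Box a d) :
    lrk a d e + lrk a d' (rev a e) + 1 = (Box a d).card := by
  have h1 : lrk a d' (rev a e) = ((Box a d).filter fun f => toLex e < toLex f).card := by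
    refine card_nbij' (rev a) (rev a) ?_ ?_ ?_ ?_
    · intro f hf
      simp only [mem_coe, mem_filter] at hf ⊢
      refine ⟨rev_mem (by omega) hf.1, ?_⟩
      have := rev_lt (rev_mem h he) hf.2
      rwa [rev_rev he] at this
    · intro f hf
      simp only [mem_coe, mem_filter] at hf ⊢
      exact ⟨rev_mem h hf.1, rev_lt hf.1 hf.2⟩
    · intro f hf
      exact rev_rev (mem_filter.mp hf).1
    · intro f hf
      exact rev_rev (mem_filter.mp hf).1
  have h2 := card_filter_add_card_filter_not (s := Box a d) (p := fun f => toLex f < toLex e)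
  have h3 : (Box a d).filter (fun f => ¬ toLex f < toLex e) =
      insert e ((Box a d).filter fun f => toLex e < toLex f) := by
    ext f
    simp only [mem_filter, mem_insert]
    constructor
    · rintro ⟨hf, hn⟩
      rcases (not_lt.mp hn).eq_or_lt with h4 | h4
      · exact Or.inl (toLex_inj.mp h4).symm
      · exact Or.inr ⟨hf, h4⟩
    · rintro (rfl | ⟨hf, h4⟩)
      · exact ⟨he, lt_irrefl _⟩
      · exact ⟨hf, lt_asymm h4⟩
  have h5 : e ∉ (Box a d).filter fun f => toLex e < toLex f := fun hm =>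
    lt_irrefl _ (mem_filter.mp hm).2
  rw [h3, card_insert_of_notMem h5] at h2
  rw [h1]
  simp only [lrk]
  omega

/-- The reflected step. -/
theorem Step.mirror {d e h m : ℕ} (hde : d + e + 1 = ∑ i, (a i - 1)) (hs : Step a e h m) :
    Step a d ((Box a d).card - m) ((Box a (d + 1)).card - h) := by
  intro f hf i hi hr
  have h1 := lrk_rev (d' := e + 1) (by omega) hf
  have h2 := lrk_rev (d' := e) (by omega) hi
  have heq : rev a (f + Pi.single i 1) + Pi.single i 1 = rev a f := by
    funext j
    have := (mem_box.mp hi).1 j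
    by_cases hj : j = i
    · subst hj
      simp [rev] at this ⊢
      omega
    · simp [rev, hj]
  have hlow : lrk a e (rev a (f + Pi.single i 1)) < h := by
    by_contra hge
    have := hs _ (rev_mem (by omega) hi) i (by rw [heq]; exact rev_mem (by omega) hf)
      (not_lt.mp hge)
    rw [heq] at this
    omega
  omega

theorem box_empty {d : ℕ} (h : ∑ i, (a i - 1) < d) : Box a d = ∅ := by
  rw [eq_empty_iff_forall_notMem]
  intro e he
  rw [mem_box] at he
  have := sum_le_sum (s := univ) (f := e) (g := fun i => a i - 1) fun i _ => by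
    have := he.1 i; omega
  omega

theorem card_box_zero (ha : ∀ i, 0 < a i) : (Box a 0).card = 1 := by
  refine card_eq_one.mpr ⟨0, ?_⟩
  ext e
  rw [mem_box, mem_singleton]
  constructor
  · intro h
    funext i
    exact (sum_eq_zero_iff.mp h.2) i (mem_univ i)
  · rintro rfl
    exact ⟨ha, by simp⟩

theorem socTop_eq {L : List (GForm K c)} (hk : L.map GForm.k = List.ofFn a) :
    socTop L = ∑ i, (a i - 1) := by
  have : L.map (fun f => f.k - 1) = (L.map GForm.k).map (fun x => x - 1) := by
    rw [List.map_map]; rfl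
  rw [socTop, this, hk, List.map_ofFn, List.sum_ofFn]
  rfl

/-- The linked ideal. -/
theorem exists_linked [Infinite K] (ha : ∀ i, 0 < a i) {L : List (GForm K c)}
    (hk : L.map GForm.k = List.ofFn a) (hreg : RegL ⊥ L) {J : Ideal (Poly K c)} (hJ : Homog J)
    (hmem : ∀ f ∈ L, f.g ∈ J) :
    ∃ J' : Ideal (Poly K c), Homog J' ∧ (∀ f ∈ L, f.g ∈ J') ∧
      ∀ i j, i + j = ∑ x, (a x - 1) → hq J' i + hq J j = (Box a i).card := by
  have hI : Homog (idl ⊥ L) := Homog.bot.idl _
  refine ⟨link (idl ⊥ L) J, hI.link hJ, fun f hf => le_link _ _ (mem_idl hf), fun i j hij => ?_⟩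
  rw [card_box_rev hij, ← hq_box hk hreg]
  refine hq_link hI hJ (idl_le bot_le hmem) (fun d hd => ?_) ?_ (fun d hd => ?_) hij
  · refine noSoc_regL c c L ?_ le_rfl hreg d fun _ => ?_
    · have := congrArg List.length hk
      simpa using this
    · rw [socTop_eq hk]; exact hd
  · rw [hq_box hk hreg, card_box_rev (d' := 0) (by omega), card_box_zero ha]
  · rw [hq_box hk hreg, box_empty hd, card_empty]

/-- The degrees from the last one on follow from the lower ones by linkage. -/
theorem step_high [Infinite K] (ha : ∀ i, 0 < a i) {L : List (GForm K c)}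
    (hk : L.map GForm.k = List.ofFn a) (hreg : RegL ⊥ L) {J : Ideal (Poly K c)} (hJ : Homog J)
    (hmem : ∀ f ∈ L, f.g ∈ J) {d : ℕ}
    (hlow : ∀ J' : Ideal (Poly K c), Homog J' → (∀ f ∈ L, f.g ∈ J') → ∀ e,
      d + e + 1 = ∑ x, (a x - 1) → Step a e (hq J' e) (hq J' (e + 1))) :
    Step a d (hq J d) (hq J (d + 1)) := by
  by_cases htop : ∑ x, (a x - 1) ≤ d
  · intro e _ i hi
    rw [box_empty (by omega)] at hi
    simp at hi
  obtain ⟨J', hJ', hmem', hlink⟩ := exists_linked ha hk hreg hJ hmem
  obtain ⟨e, he⟩ : ∃ e, d + e + 1 = ∑ x, (a x - 1) := ⟨∑ x, (a x - 1) - 1 - d, by omega⟩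
  have h0 := hlink e (d + 1) (by omega)
  have h1 := hlink (e + 1) d (by omega)
  have c0 := card_box_rev (a := a) (d := e) (d' := d + 1) (by omega)
  have c1 := card_box_rev (a := a) (d := e + 1) (d' := d) (by omega)
  exact ((hlow J' hJ' hmem' e he).mirror he).mono (by omega) (by omega)

end

end Vale.Agent.P200.Chain
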