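import Vale.Agent.P200.Chain.BoxShadow

/-!
# A form that is a product of linear forms

The linear factors are used in a greedy order, one slice of the box for each factor.
-/

namespace Vale.Agent.P200.Chain

open MvPolynomial Module Finset

open scoped Classical

noncomputable section

variable {K : Type} [Field K]

/-- A polynomial that is a product of linear forms. -/
def IsLinProd {n : ℕ} (g : Poly K n) : Prop :=
  ∃ ls : List (Poly K n), (∀ l ∈ ls, l.IsHomogeneous 1) ∧ ls.prod = g

theorem IsLinProd.gform {n : ℕ} {l : Poly K (n + 1)} (C : Cut K n l) {f : GForm K (n + 1)}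
    (h : IsLinProd f.g) : IsLinProd (C.gform f).g := by
  obtain ⟨ls, hls, hp⟩ := h
  refine ⟨ls.map C.φ, fun x hx => ?_, ?_⟩
  · obtain ⟨y, hy, rfl⟩ := List.mem_map.mp hx
    exact C.φ_hom y 1 (hls y hy)
  · show _ = C.φ f.g
    rw [← hp, map_list_prod]

theorem isHomogeneous_list_prod {n : ℕ} : ∀ (ls : List (Poly K n)),
    (∀ l ∈ ls, l.IsHomogeneous 1) → ls.prod.IsHomogeneous ls.length := by
  intro ls
  induction ls with
  | nil => intro _; exact isHomogeneous_one (Fin n) K
  | cons l ls ih =>
    intro h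
    rw [List.prod_cons, List.length_cons, add_comm]
    exact (h l List.mem_cons_self).mul (ih fun x hx => h x (List.mem_cons_of_mem _ hx))

/-- Slices along the linear factors, chosen greedily at the degree `d`. -/
theorem exists_slices {n : ℕ} {G : Ideal (Poly K n)} (Q : ℕ → ℕ → ℕ → Prop) :
    ∀ (m : ℕ) (ls : List (Poly K n)), ls.length = m →
      (∀ l ∈ ls, l.IsHomogeneous 1 ∧ l ≠ 0 ∧ ∀ J : Ideal (Poly K n), Homog J → G ≤ J →
        ∀ e, Q e (hq (J ⊔ Ideal.span {l}) e) (hq (J ⊔ Ideal.span {l}) (e + 1))) →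
      ∀ J : Ideal (Poly K n), Homog J → G ≤ J → ls.prod ∈ J → ∀ d : ℕ,
      ∃ h : ℕ → ℕ → ℕ,
        (∀ e, hq J e = ∑ t ∈ range (min m (e + 1)), h t (e - t)) ∧
        (∀ t, t < m → ∀ e, Q e (h t e) (h t (e + 1))) ∧
        (∀ t, t + 1 < m → t ≤ d → h (t + 1) (d - t) ≤ h t (d - t)) ∧
        (0 < m → ∃ l ∈ ls, ∀ e, h 0 e = hq (J ⊔ Ideal.span {l}) e) := by
  intro m
  induction m with
  | zero =>
    intro ls hm _ J _ _ hp d
    refine ⟨fun _ _ => 0, fun e => ?_, fun t ht => absurd ht (Nat.not_lt_zero _),
      fun t ht => absurd ht (by omega), fun h => absurd h (lt_irrefl _)⟩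
    rw [List.length_eq_zero_iff] at hm
    subst hm
    rw [List.prod_nil, ← Ideal.eq_top_iff_one] at hp
    simp [hq_eq_zero_iff, hp]
  | succ m ih =>
    intro ls hm hls J hJ hG hp d
    obtain ⟨l, hl, hbest⟩ := exists_max_image ls.toFinset
      (fun l => hq (J ⊔ Ideal.span {l}) d)
      ((List.toFinset_nonempty_iff ls).mpr (List.ne_nil_of_length_eq_add_one hm))
    rw [List.mem_toFinset] at hl
    obtain ⟨hl1, hl0, hQ⟩ := hls l hl
    have hm' : (ls.erase l).length = m := by rw [List.length_erase_of_mem hl, hm]; omega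
    obtain ⟨h, hsum, hst, hmono, hhead⟩ := ih (ls.erase l) hm'
      (fun x hx => hls x (List.mem_of_mem_erase hx)) (colon J l) (hJ.colon hl1)
      (hG.trans (le_colon J l))
      (mem_colon.mpr (by rwa [← List.prod_cons, ← (List.perm_cons_erase hl).prod_eq])) (d - 1)
    refine ⟨fun t e => if t = 0 then hq (J ⊔ Ideal.span {l}) e else h (t - 1) e,
      fun e => ?_, ?_, ?_, fun _ => ⟨l, hl, fun e => by simp⟩⟩
    · rcases e with _ | e
      · simp [hq_sup_of_lt hJ hl1 one_pos]
      · rw [hq_split hJ hl1 hl0 e, hsum e, show min (m + 1) (e + 1 + 1) = min m (e + 1) + 1 by omega,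
          sum_range_succ', add_comm]
        congr 1
        refine sum_congr rfl fun t _ => ?_
        simp
    · intro t ht e
      rcases t with _ | t
      · simpa using hQ J hJ hG e
      · simpa using hst t (by omega) e
    · intro t ht htd
      rcases t with _ | t
      · obtain ⟨x, hx, hx0⟩ := hhead (by omega)
        simp only [zero_add, one_ne_zero, if_false, if_true, Nat.sub_self, Nat.sub_zero, hx0]
        refine le_trans ?_ (hbest x (List.mem_toFinset.mpr (List.mem_of_mem_erase hx)))
        exact hq_anti (sup_le_sup_right (le_colon J l) _) d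
      · simp only [Nat.add_one_ne_zero, if_false, Nat.add_sub_cancel]
        rw [show d - (t + 1) = d - 1 - t by omega]
        exact hmono t (by omega) (by omega)

/-- Hilbert functions over forms that are split outside `N` follow the segments of the box. -/
def LexS (K : Type) [Field K] {c : ℕ} (a : Fin c → ℕ) (N : Finset (Fin c)) : Prop :=
  ∀ f : Fin c → GForm K c, (∀ i, (f i).k = a i) → RegL ⊥ (List.ofFn f) →
    (∀ i, i ∉ N → IsLinProd (f i).g) →
    ∀ J : Ideal (Poly K c), Homog J → (∀ i, (f i).g ∈ J) →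
      ∀ d, Step a d (hq J d) (hq J (d + 1))

theorem ofFn_perm_cons {α : Type} {c : ℕ} (f : Fin (c + 1) → α) (k : Fin (c + 1)) :
    List.Perm (List.ofFn f) (f k :: List.ofFn fun i => f (k.succAbove i)) := by
  rw [← Multiset.coe_eq_coe, ← Multiset.cons_coe, ← Fin.univ_val_map, ← Fin.univ_val_map,
    Fin.univ_succAbove c k, Finset.cons_val, Multiset.map_cons, Finset.map_val, Multiset.map_map]
  rfl

/-- Removing a split form. -/
theorem lexS_step {c : ℕ} {a : Fin (c + 1) → ℕ} (hCL : CL a) (k : Fin (c + 1))
    {N : Finset (Fin (c + 1))} (hk : k ∉ N)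
    (ih : LexS K (facet k a) (univ.filter fun i => k.succAbove i ∈ N)) : LexS K a N := by
  intro f hdeg hreg hsplit J hJ hmem d
  set g : Fin c → GForm K (c + 1) := fun i => f (k.succAbove i) with hg
  set G := idl ⊥ (List.ofFn g) with hGdef
  obtain ⟨hregG, hkz, -⟩ := (regL_append _ _ _).mp (regL_perm
    ((ofFn_perm_cons f k).trans (List.perm_append_comm (l₁ := [f k]) (l₂ := List.ofFn g)))
    Homog.bot hreg).1
  obtain ⟨ls, hls, hprod⟩ := hsplit k hk
  have hGne : G ≠ ⊤ := ne_top_of_hq_zero (regL_hq_zero Homog.bot hq_bot_zero (List.ofFn g))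
  have hfk0 : (f k).g ≠ 0 := ne_zero_of_nzd hGne hkz
  have hlen : ls.length = a k := by
    rw [← hdeg k]
    have h1 := isHomogeneous_list_prod ls hls
    rw [hprod] at h1
    exact h1.inj_right (f k).hom hfk0
  have hGJ : G ≤ J := idl_le bot_le fun x hx => by
    obtain ⟨i, rfl⟩ := List.mem_ofFn.mp hx
    exact hmem _
  obtain ⟨h, hsum, hst, hmono, -⟩ := exists_slices (G := G)
    (fun e x y => x ≤ (Box (facet k a) e).card ∧ Step (facet k a) e x y) (a k) ls hlen
    (by
      intro l hl
      have hlz : NZD G l := by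
        intro p hp
        refine hkz p ?_
        obtain ⟨q, hq⟩ := List.dvd_prod hl
        rw [← hprod, hq, mul_comm l q, mul_assoc]
        exact G.mul_mem_left _ hp
      have hl0 : l ≠ 0 := ne_zero_of_nzd hGne hlz
      obtain ⟨C⟩ := exists_cut (hls l hl) hl0
      let v : GForm K (c + 1) := ⟨l, 1, hls l hl, one_pos⟩
      have hregv : RegL ⊥ (v :: List.ofFn g) :=
        (regL_perm (List.perm_append_comm (l₁ := List.ofFn g) (l₂ := [v])) Homog.bot
          ((regL_append _ _ _).mpr ⟨hregG, hlz, trivial⟩)).1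
      have hr := (C.regL_image (L := List.ofFn g) (I := ⊥) hregv.2).1
      rw [C.image_bot, List.map_ofFn] at hr
      refine ⟨hls l hl, hl0, fun J' hJ' hGJ' e => ?_⟩
      have himg : ∀ i, (C.gform (g i)).g ∈ C.image J' := fun i =>
        C.mem_image.mpr ⟨(g i).g, hGJ' (mem_idl (List.mem_ofFn.mpr ⟨i, rfl⟩)), rfl⟩
      rw [← C.hq_image hJ' (hls l hl), ← C.hq_image hJ' (hls l hl)]
      refine ⟨hq_le_card (a := facet k a) ?_ hr (fun x hx => ?_) e, ?_⟩
      · rw [List.map_ofFn]
        exact congrArg List.ofFn (funext fun i => hdeg _)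
      · obtain ⟨i, rfl⟩ := List.mem_ofFn.mp hx
        exact himg i
      · exact ih (fun i => C.gform (g i)) (fun i => hdeg _) hr
          (fun i hi => IsLinProd.gform C (hsplit _ fun hN => hi (mem_filter.mpr ⟨mem_univ _, hN⟩)))
          _ (C.homog_image hJ') himg e)
    J hJ hGJ (hprod ▸ hmem k) d
  let B : ℕ → Finset (Fin (c + 1) → ℕ) := fun e => (Box a e).filter fun u =>
    lrk (facet k a) (e - u k) (k.removeNth u) < h (u k) (e - u k)
  have hB : ∀ e, (B e).card = hq J e := by
    intro e
    rw [hsum e, card_eq_sum_ones, sum_slices k (T := B e) (filter_subset _ _)]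
    refine sum_congr rfl fun t ht => ?_
    rw [Finset.mem_range] at ht
    rw [← card_eq_sum_ones, ← card_lrk_lt (hst t (by omega) (e - t)).1]
    congr 1
    ext u
    simp only [slice, B, mem_filter, insertNth_mem_box, Fin.insertNth_apply_same,
      Fin.removeNth_insertNth]
    exact ⟨fun h => ⟨h.1, h.2.2⟩, fun h => ⟨h.1, ⟨by omega, by omega, h.1⟩, h.2⟩⟩
  have hup : Up a d (Box a d \ B d) (Box a (d + 1) \ B (d + 1)) := by
    refine ⟨sdiff_subset, sdiff_subset, fun u hu i hi => mem_sdiff.mpr ⟨hi, fun hiB => ?_⟩⟩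
    obtain ⟨hub, huB⟩ := mem_sdiff.mp hu
    have hge : h (u k) (d - u k) ≤ lrk (facet k a) (d - u k) (k.removeNth u) :=
      not_lt.mp fun h => huB (mem_filter.mpr ⟨hub, h⟩)
    have hlt := (mem_filter.mp hiB).2
    obtain ⟨h1, h2, h3⟩ := removeNth_mem_box k hub
    obtain ⟨h5, -, h4⟩ := removeNth_mem_box k hi
    rcases Fin.eq_self_or_eq_succAbove k i with rfl | ⟨j, rfl⟩
    · have hrem : i.removeNth (u + Pi.single i 1) = i.removeNth u := by
        ext m; simp [Fin.removeNth, Fin.succAbove_ne i m]
      simp only [Pi.add_apply, Pi.single_eq_same, hrem, Nat.add_sub_add_right] at hlt h5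
      have := hmono (u i) (by omega) h2
      omega
    · have hval : (u + Pi.single (k.succAbove j) 1 : Fin (c + 1) → ℕ) k = u k := by simp
      have hrem : k.removeNth (u + Pi.single (k.succAbove j) 1) =
          k.removeNth u + Pi.single j 1 := by
        ext m; simp [Fin.removeNth, Pi.single_apply]
      rw [hval, hrem, show d + 1 - u k = d - u k + 1 by omega] at hlt h4
      exact ((hst (u k) h1 (d - u k)).2 _ h3 j h4 hge).not_gt hlt
  refine (hCL d _ _ hup).mono ?_ ?_
  · have := card_sdiff_of_subset (show B d ⊆ Box a d from filter_subset _ _)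
    have := card_le_card (show B d ⊆ Box a d from filter_subset _ _)
    have := hB d
    omega
  · have := card_sdiff_of_subset (show B (d + 1) ⊆ Box a (d + 1) from filter_subset _ _)
    have := card_le_card (show B (d + 1) ⊆ Box a (d + 1) from filter_subset _ _)
    have := hB (d + 1)
    omega

/-- The first three degrees in `N` are arbitrary, the later ones at least the socle degree of the
earlier ones in `N`. -/
structure GoodOn {c : ℕ} (a : Fin c → ℕ) (N : Finset (Fin c)) : Prop where
  three : 3 ≤ N.card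
  two : ∀ i, 2 ≤ a i
  mono : Monotone a
  grow : ∀ i ∈ N, 3 ≤ (N.filter (· < i)).card → ∑ j ∈ N.filter (· < i), (a j - 1) ≤ a i

theorem GoodOn.facet {c : ℕ} {a : Fin (c + 1) → ℕ} {N : Finset (Fin (c + 1))} (h : GoodOn a N)
    {k : Fin (c + 1)} (hk : k ∉ N) :
    GoodOn (facet k a) (univ.filter fun i => k.succAbove i ∈ N) := by
  set N' := univ.filter fun i => k.succAbove i ∈ N with hN'
  have hmap : ∀ p : Fin (c + 1) → Prop, [DecidablePred p] →
      (N'.filter fun i => p (k.succAbove i)).map k.succAboveEmb = N.filter p := by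
    intro p _
    ext x
    simp only [Finset.mem_map, mem_filter, hN', mem_univ, true_and, Fin.succAboveEmb_apply]
    constructor
    · rintro ⟨i, hi, rfl⟩; exact hi
    · intro hx
      rcases Fin.eq_self_or_eq_succAbove k x with rfl | ⟨i, rfl⟩
      · exact absurd hx.1 hk
      · exact ⟨i, hx, rfl⟩
  refine ⟨?_, fun i => h.two _, fun i j hij => h.mono ((Fin.strictMono_succAbove k).monotone hij),
    fun i hi h3 => ?_⟩
  · have h0 := hmap (fun _ => True)
    simp only [filter_true] at h0
    rw [← card_map k.succAboveEmb, h0]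
    exact h.three
  · have h0 := hmap (fun x => x < k.succAbove i)
    have hf : (N'.filter fun j => k.succAbove j < k.succAbove i) = N'.filter (· < i) :=
      filter_congr fun j _ => (Fin.strictMono_succAbove k).lt_iff_lt
    rw [hf] at h0
    have := h.grow (k.succAbove i) (mem_filter.mp hi).2 (by rwa [← h0, card_map])
    rwa [← h0, sum_map] at this

theorem lexS_good [IsAlgClosed K] :
    ∀ (c : ℕ) (a : Fin c → ℕ) (N : Finset (Fin c)), GoodOn a N → LexS K a N := by
  intro c
  induction c with
  | zero =>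
    intro a N h
    have := (card_le_univ N).trans' h.three
    simp at this
  | succ c ih =>
    intro a N h
    have hc : 3 ≤ c + 1 := h.three.trans ((card_le_univ N).trans_eq (Fintype.card_fin _))
    by_cases hN : N = univ
    · subst hN
      have hgood : Good a := ⟨hc, h.two, h.mono, fun i hi => by
        have e : univ.filter (· < i) = Finset.Iio i := by ext; simp
        have := h.grow i (mem_univ i) (by rw [e, Fin.card_Iio]; exact hi)
        rwa [e] at this⟩
      intro f hdeg hreg _ J hJ hmem
      refine lexM_good _ a hgood (List.ofFn f) ?_ hreg J hJ fun x hx => ?_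
      · rw [List.map_ofFn]
        exact congrArg List.ofFn (funext hdeg)
      · obtain ⟨i, rfl⟩ := List.mem_ofFn.mp hx
        exact hmem i
    · obtain ⟨k, hk⟩ : ∃ k, k ∉ N := by
        by_contra hno
        push Not at hno
        exact hN (eq_univ_iff_forall.mpr hno)
      exact lexS_step (cl_box _ a hc h.two h.mono) k hk (ih _ _ (h.facet hk))

end

end Vale.Agent.P200.Chain
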