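import Vale.Agent.P200.Ext
import Vale.Agent.P200.Chain.Split

/-!
# Monotone models for sequences with split forms
-/

namespace Vale.Agent.P200.Chain

open MvPolynomial Module Finset

open scoped Classical

noncomputable section

variable {K : Type} [Field K] {n c : ℕ}

/-- Monotone families of ideals containing a regular sequence of degrees `a`, split outside `N`,
have monotone families of upper sets with the same Hilbert functions and the pure powers. -/
def ModelS (K : Type) [Field K] (n : ℕ) {c : ℕ} (a : Fin c → ℕ) (N : Finset (Fin c)) : Prop :=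
  ∀ f : Fin c → GForm K n, (∀ i, (f i).k = a i) → RegL ⊥ (List.ofFn f) →
    (∀ i, i ∉ N → IsLinProd (f i).g) →
    ∀ (P : Type) [Preorder P] (I : P → Ideal (Poly K n)), Monotone I → (∀ p, Homog (I p)) →
      (∀ p i, (f i).g ∈ I p) →
      ∃ s : P → Set (Fin n →₀ ℕ), Monotone s ∧ (∀ p, IsUpperSet (s p)) ∧
        (∀ p (i : Fin c) (hn : (i : ℕ) < n), Finsupp.single ⟨i, hn⟩ (a i) ∈ s p) ∧
        ∀ p d, ((degSet n d).filter fun e => e ∉ s p).card = hq (I p) d

/-- As many variables as forms. -/
theorem modelS_base [IsAlgClosed K] {a : Fin c → ℕ} {N : Finset (Fin c)} (ha : GoodOn a N) :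
    ModelS K c a N := by
  intro f hk hreg hsplit P _ I hmono hI hmem
  let s : P → Set (Fin c →₀ ℕ) := fun p =>
    {e | (∀ i, e i < a i) → hq (I p) e.degree ≤ lrk a e.degree ⇑e}
  refine ⟨s, fun p q hpq e he hb => (hq_anti (hmono hpq) _).trans (he hb), ?_, ?_, ?_⟩
  · intro p
    have key : ∀ k (e f : Fin c →₀ ℕ), e ≤ f → f.degree = e.degree + k → e ∈ s p → f ∈ s p := by
      intro k
      induction k with
      | zero =>
        intro e f hle hdeg he
        have : e = f := by
          rw [degree_eq_sum_fun, degree_eq_sum_fun, add_zero] at hdeg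
          ext i
          exact (sum_eq_sum_iff_of_le fun i _ => hle i).mp hdeg.symm i (mem_univ i)
        exact this ▸ he
      | succ k ih =>
        intro e u hle hdeg he hb
        obtain ⟨i, hi⟩ : ∃ i, e i < u i := by
          by_contra hno
          push Not at hno
          have := sum_le_sum (s := univ) fun i _ => hno i
          rw [degree_eq_sum_fun, degree_eq_sum_fun] at hdeg
          omega
        set g : Fin c →₀ ℕ := u - Finsupp.single i 1
        have hgf : g + Finsupp.single i 1 = u :=
          tsub_add_cancel_of_le (Finsupp.single_le_iff.mpr (by omega))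
        have hle' : e ≤ g := fun j => by
          have h1 := hle j
          by_cases hj : j = i
          · subst hj; simp [g]; omega
          · simpa [g, Finsupp.single_eq_of_ne hj] using h1
        have hd : u.degree = g.degree + 1 := by
          rw [← hgf, map_add, Finsupp.degree_single]
        have hgb : ∀ j, g j < a j := fun j =>
          lt_of_le_of_lt (by simp [g]) (hb j)
        have hg := ih e g hle' (by omega) he hgb
        have hcoe : (⇑u : Fin c → ℕ) = ⇑g + Pi.single i 1 := by
          rw [← hgf, Finsupp.coe_add, Finsupp.single_eq_pi_single]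
        rw [hd, hcoe]
        refine lexS_good c a N ha f hk hreg hsplit (I p) (hI p) (hmem p) g.degree ⇑g
          (mem_box.mpr ⟨hgb, (degree_eq_sum_fun g).symm⟩) i ?_ hg
        rw [mem_box, ← hcoe]
        exact ⟨hb, by rw [← hd, degree_eq_sum_fun]⟩
    intro e u hle he
    refine key (u.degree - e.degree) e u hle ?_ he
    have h1 := sum_le_sum (s := univ) fun i _ => hle i
    rw [degree_eq_sum_fun, degree_eq_sum_fun]
    omega
  · intro p i hn hb
    have := hb ⟨i, hn⟩
    simp at this
  · intro p d
    have hle : hq (I p) d ≤ (Box a d).card := by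
      refine hq_le_card (a := a) ?_ hreg (fun x hx => ?_) d
      · rw [List.map_ofFn]
        exact congrArg List.ofFn (funext hk)
      · obtain ⟨i, rfl⟩ := List.mem_ofFn.mp hx
        exact hmem p i
    refine Eq.trans ?_ (card_lrk_lt hle)
    have key : ∀ u : Fin c → ℕ, u ∈ (Box a d).filter (fun u => lrk a d u < hq (I p) d) ↔
        ∑ i, u i = d ∧ (Finsupp.equivFunOnFinite.symm u : Fin c →₀ ℕ) ∉ s p := by
      intro u
      simp only [Finset.mem_filter, mem_box, s, Set.mem_ofPred_eq, Classical.not_imp, not_le]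
      have hd : (Finsupp.equivFunOnFinite.symm u : Fin c →₀ ℕ).degree = ∑ i, u i := by
        simp [degree_eq_sum_fun]
      constructor
      · rintro ⟨⟨h1, h2⟩, h3⟩
        refine ⟨h2, by simpa using h1, ?_⟩
        rw [hd, h2]
        simpa using h3
      · rintro ⟨h2, h1, h3⟩
        rw [hd, h2] at h3
        exact ⟨⟨by simpa using h1, h2⟩, by simpa using h3⟩
    convert card_degSet_box (fun e : Fin c →₀ ℕ => e ∉ s p) _ key

/-- A model in `n` variables gives a model in one more variable. -/
theorem modelS_succ [Infinite K] {a : Fin c → ℕ} {N : Finset (Fin c)} (h : c ≤ n)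
    (hM : ModelS K n a N) : ModelS K (n + 1) a N := by
  intro f hk hreg hsplit P _ I hmono hI hmem
  obtain ⟨l, hl1, hl0, hlz⟩ := exists_nzd_linear (ι := Unit) (fun _ => idl ⊥ (List.ofFn f))
    (fun _ => Homog.bot.idl _)
    (fun _ e => noSoc_regL c (n + 1) (List.ofFn f) (by simp) (by omega) hreg e (by omega))
    (by omega : 0 < n + 1)
  obtain ⟨C⟩ := exists_cut hl1 hl0
  let v : GForm K (n + 1) := ⟨l, 1, hl1, by norm_num⟩
  have hreg' : RegL ⊥ (v :: List.ofFn f) :=
    (regL_perm (List.perm_append_comm (l₁ := List.ofFn f) (l₂ := [v])) Homog.bot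
      ((regL_append _ _ _).mpr ⟨hreg, hlz (), trivial⟩)).1
  have hr := (C.regL_image (L := List.ofFn f) (I := ⊥) hreg'.2).1
  rw [C.image_bot, List.map_ofFn] at hr
  let U : P × ℕ → Ideal (Poly K n) := fun x => C.image (colon (I x.1) (l ^ x.2))
  have hU : Monotone U := by
    rintro ⟨p, i⟩ ⟨q, j⟩ ⟨hpq, hij⟩
    refine C.image_mono fun x hx => ?_
    rw [mem_colon] at hx ⊢
    rw [← Nat.sub_add_cancel (show i ≤ j from hij), pow_add, mul_assoc]
    exact (I q).mul_mem_left _ (hmono hpq hx)
  obtain ⟨s, hs, hsup, hpure, hcnt⟩ := hM (fun i => C.gform (f i)) hk hr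
    (fun i hi => IsLinProd.gform C (hsplit i hi)) (P × ℕ) U hU
    (fun x => C.homog_image ((hI x.1).colon (isHomogeneous_linear_pow hl1 x.2)))
    (fun x i => C.mem_image.mpr ⟨(f i).g, le_colon _ _ (hmem x.1 i), rfl⟩)
  refine ⟨fun p => {e | expInit e ∈ s (p, e (Fin.last n))}, ?_, ?_, ?_, fun p d => ?_⟩
  · intro p q hpq e he
    exact hs (show ((p, e (Fin.last n)) : P × ℕ) ≤ (q, e (Fin.last n)) from ⟨hpq, le_rfl⟩) he
  · intro p e e' hee he
    refine hs (show ((p, e (Fin.last n)) : P × ℕ) ≤ (p, e' (Fin.last n)) from ⟨le_rfl, hee _⟩) ?_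
    exact hsup _ (fun i => hee i.castSucc) he
  · intro p i hn
    have hin : (i : ℕ) < n := lt_of_lt_of_le i.2 h
    show expInit _ ∈ s _
    have e2 : expInit (Finsupp.single (⟨i, hn⟩ : Fin (n + 1)) (a i)) =
        Finsupp.single ⟨i, hin⟩ (a i) := by
      refine Finsupp.ext fun j => ?_
      rw [expInit_apply]
      simp [Finsupp.single_apply, Fin.ext_iff]
    rw [e2]
    exact hpure _ i hin
  · rw [C.hq_sum (hI p) hl1 hl0 d]
    refine Eq.trans ?_ (Finset.sum_congr rfl fun j _ => hcnt (p, j) (d - j))
    refine Eq.trans ?_ (card_degSet_succ (fun j => s (p, j)) d)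
    congr 1

/-- Models in every number of variables. -/
theorem modelS_good [IsAlgClosed K] {a : Fin c → ℕ} {N : Finset (Fin c)} (ha : GoodOn a N)
    (hcn : c ≤ n) : ModelS K n a N := by
  induction n, hcn using Nat.le_induction with
  | base => exact modelS_base ha
  | succ m hm ih => exact modelS_succ hm ih

/-- A model over an extension field gives monomial ideals over the ground field. -/
theorem exists_upperSet_of_modelS (K' : Type) [Field K'] [Algebra K K'] {a : Fin c → ℕ}
    {N : Finset (Fin c)} (hM : ModelS K' n a N) (f : Fin c → GForm K n)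
    (hk : ∀ i, (f i).k = a i) (hreg : RegL ⊥ (List.ofFn f))
    (hsplit : ∀ i, i ∉ N → IsLinProd (f i).g) {I : Ideal (Poly K n)} (hI : Homog I)
    (hmem : ∀ i, (f i).g ∈ I) :
    ∃ (S : Set (Fin n →₀ ℕ)) (hS : IsUpperSet S),
      (∀ (i : Fin c) (hn : (i : ℕ) < n), Finsupp.single ⟨i, hn⟩ (a i) ∈ S) ∧
        ∀ d, hq (monIdeal K S hS) d = hq I d := by
  have hr := regL_map_bc K' Homog.bot hreg
  rw [Ideal.map_bot, List.map_ofFn] at hr
  obtain ⟨s, -, hs, hpure, hcnt⟩ := hM (fun i => (f i).toExt K') hk hr
    (fun i hi => by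
      obtain ⟨ls, hls, hp⟩ := hsplit i hi
      refine ⟨ls.map (bc K'), fun x hx => ?_, ?_⟩
      · obtain ⟨y, hy, rfl⟩ := List.mem_map.mp hx
        exact (hls y hy).map _
      · show _ = bc K' (f i).g
        rw [← hp, map_list_prod])
    Unit (fun _ => I.map (bc K')) monotone_const
    (fun _ => hI.map_bc K') (fun _ i => Ideal.mem_map_of_mem _ (hmem i))
  refine ⟨s (), hs (), hpure (), fun d => ?_⟩
  rw [hq_monIdeal, ← hq_map_bc K' hI d, ← hcnt () d]

end

end Vale.Agent.P200.Chain
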