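import Vale.Agent.P200.Ext
import Vale.Agent.P200.ThreeAll
import Vale.Agent.P200.Chain.Segment
import Vale.Agent.P200.Chain.Junction

/-!
# Any number of forms, rapidly growing from the fourth on
-/

namespace Vale.Agent.P200.Chain

open MvPolynomial Module Finset

open scoped Classical

noncomputable section

variable {K : Type} [Field K]

/-- The first three degrees are arbitrary, the later ones at least the socle degree of the
earlier ones. -/
structure Good {c : ℕ} (a : Fin c → ℕ) : Prop where
  three : 3 ≤ c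
  two : ∀ i, 2 ≤ a i
  mono : Monotone a
  grow : ∀ i : Fin c, 3 ≤ (i : ℕ) → ∑ j ∈ Finset.Iio i, (a j - 1) ≤ a i

theorem Good.init {c : ℕ} {a : Fin (c + 1) → ℕ} (h : Good a) (hc : 3 ≤ c) :
    Good (fun i : Fin c => a i.castSucc) where
  three := hc
  two i := h.two _
  mono i j hij := h.mono (Fin.castSucc_le_castSucc_iff.mpr hij)
  grow i hi := by
    refine le_trans (le_of_eq ?_) (h.grow i.castSucc (by simpa using hi))
    rw [← Fin.map_castSuccEmb_Iio, sum_map]
    rfl

theorem Good.tail {c : ℕ} {a : Fin (c + 1) → ℕ} (h : Good a) (hc : 3 ≤ c) :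
    Good (fun i : Fin c => a i.succ) where
  three := hc
  two i := h.two _
  mono i j hij := h.mono (Fin.succ_le_succ_iff.mpr hij)
  grow i hi := by
    refine le_trans ?_ (h.grow i.succ (by simp; omega))
    have e : ∑ j ∈ Finset.Iio i, (a j.succ - 1) =
        ∑ j ∈ (Finset.Iio i).map (Fin.succEmb c), (a j - 1) := by
      rw [sum_map]; rfl
    rw [e]
    refine sum_le_sum_of_subset fun j hj => ?_
    obtain ⟨k, hk, rfl⟩ := Finset.mem_map.mp hj
    exact Finset.mem_Iio.mpr (Fin.succ_lt_succ_iff.mpr (Finset.mem_Iio.mp hk))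

theorem Good.last_ge {c : ℕ} {a : Fin (c + 1) → ℕ} (h : Good a) (hc : 3 ≤ c) :
    ∑ i : Fin c, (a i.castSucc - 1) ≤ a (Fin.last c) := by
  refine le_trans (le_of_eq ?_) (h.grow (Fin.last c) (by simpa using hc))
  rw [show Finset.Iio (Fin.last c) = univ.map Fin.castSuccEmb from Fin.Iio_last_eq_map]
  rw [sum_map]
  rfl

theorem facet_last {c : ℕ} (a : Fin (c + 1) → ℕ) :
    facet (Fin.last c) a = fun i => a i.castSucc := by
  funext i; simp [facet]

theorem facet_zero {c : ℕ} (a : Fin (c + 1) → ℕ) : facet 0 a = fun i => a i.succ := by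
  funext i; simp [facet]

/-- The volume of a box exceeds twice its socle degree. -/
theorem prod_large : ∀ (c : ℕ) (a : Fin c → ℕ), 3 ≤ c → (∀ i, 2 ≤ a i) →
    2 * ∑ i, (a i - 1) + 2 ≤ ∏ i, a i := by
  intro c
  induction c with
  | zero => intro a h; omega
  | succ c ih =>
    intro a hc h2
    rcases (show c = 2 ∨ 3 ≤ c by omega) with rfl | hc'
    · rw [Fin.sum_univ_three, Fin.prod_univ_three]
      obtain ⟨x, hx⟩ := Nat.exists_eq_add_of_le (h2 0)
      obtain ⟨y, hy⟩ := Nat.exists_eq_add_of_le (h2 1)
      obtain ⟨z, hz⟩ := Nat.exists_eq_add_of_le (h2 2)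
      rw [hx, hy, hz]
      rw [show 2 + x - 1 = x + 1 by omega, show 2 + y - 1 = y + 1 by omega,
        show 2 + z - 1 = z + 1 by omega]
      nlinarith [Nat.zero_le (x * y), Nat.zero_le (x * z), Nat.zero_le (y * z),
        Nat.zero_le (x * y * z)]
    · have h := ih (fun i => a i.castSucc) hc' fun i => h2 _
      rw [Fin.sum_univ_castSucc, Fin.prod_univ_castSucc]
      obtain ⟨z, hz⟩ := Nat.exists_eq_add_of_le (h2 (Fin.last c))
      rw [hz, show 2 + z - 1 = z + 1 by omega]
      have hP : 2 ≤ ∏ i : Fin c, a i.castSucc := by omega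
      nlinarith [Nat.mul_le_mul_right z hP]

theorem sum_card_box {c : ℕ} (a : Fin c → ℕ) {d : ℕ} (hd : ∑ i, (a i - 1) ≤ d) :
    ∑ j ∈ range (d + 1), (Box a j).card = ∏ i, a i := by
  have h := card_eq_sum_card_fiberwise (f := fun e : Fin c → ℕ => ∑ i, e i)
    (s := Fintype.piFinset fun i => range (a i)) (t := range (d + 1)) fun e he => by
      simp only [mem_coe, Fintype.mem_piFinset, Finset.mem_range] at he ⊢
      have := sum_le_sum (s := univ) (f := e) (g := fun i => a i - 1) fun i _ => by
        have := he i; omega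
      omega
  rw [Fintype.card_piFinset] at h
  simp only [card_range] at h
  rw [h]
  rfl

theorem add_single_lt {c : ℕ} {e f : Fin c → ℕ} (k : Fin c) (h : toLex e < toLex f) :
    toLex (e + Pi.single k 1) < toLex (f + Pi.single k 1) := by
  obtain ⟨i, hi, hlt⟩ := lt_exists h
  exact lt_of_first i (fun j hj => by simp [hi j hj]) (by simpa using hlt)

/-- Rank drops by at most one into the degree of the last side. -/
theorem lrk_succ {c : ℕ} {a : Fin (c + 1) → ℕ} {d : ℕ} (hd : d + 1 = a (Fin.last c))
    (e : Fin (c + 1) → ℕ) (i : Fin (c + 1)) :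
    lrk a d e ≤ lrk a (d + 1) (e + Pi.single i 1) + 1 := by
  set L := Fin.last c
  let z : Fin (c + 1) → ℕ := Pi.single L d
  have h1 : (((Box a d).filter fun f => toLex f < toLex e).erase z).card ≤
      lrk a (d + 1) (e + Pi.single i 1) := by
    refine card_le_card_of_injOn (fun f => f + Pi.single L 1) (fun f hf => ?_)
      fun f _ g _ h => add_right_cancel h
    simp only [mem_coe, mem_erase, mem_filter] at hf ⊢
    obtain ⟨hfz, hfb, hfe⟩ := hf
    obtain ⟨hf1, hf2⟩ := mem_box.mp hfb
    refine ⟨?_, (add_single_lt L hfe).trans_le ?_⟩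
    · rw [mem_box]
      refine ⟨fun j => ?_, by simp [sum_add_distrib, hf2]⟩
      by_cases hj : j = L
      · subst hj
        have hle := hf2 ▸ single_le_sum (fun i _ => Nat.zero_le (f i)) (mem_univ L)
        by_contra hc
        simp at hc
        refine hfz (funext fun j => ?_)
        by_cases hj : j = L
        · subst hj; simp [z]; omega
        · have hpair := add_sum_erase univ f (mem_univ L)
          have := single_le_sum (s := univ.erase L) (fun i _ => Nat.zero_le (f i))
            (mem_erase.mpr ⟨hj, mem_univ j⟩)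
          simp [z, hj]
          omega
      · simpa [hj] using hf1 j
    · rcases eq_or_ne i L with rfl | hi
      · exact le_rfl
      · refine (lt_of_first i (fun j hj => ?_) ?_).le
        · have hjL : j ≠ L := (lt_of_lt_of_le hj (Fin.le_last i)).ne
          simp [hj.ne, hjL]
        · simp [hi]
  have h2 := pred_card_le_card_erase (s := (Box a d).filter fun f => toLex f < toLex e) (a := z)
  simp only [lrk] at h1 ⊢
  omega

/-- One more form of large degree. -/
theorem lexM_step [Infinite K] {c : ℕ} {a : Fin (c + 2) → ℕ} (ha : Good a) (hc : 3 ≤ c + 1)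
    (hinit : LexM K fun i : Fin (c + 1) => a i.castSucc)
    (htail : LexM K fun i : Fin (c + 1) => a i.succ) : LexM K a := by
  have hpos : ∀ i, 0 < a i := fun i => lt_of_lt_of_le two_pos (ha.two i)
  have hcl0 : CL (facet 0 a) := by
    rw [facet_zero]; exact cl_of_lexM K (fun i => hpos _) htail
  have hcll : CL (facet (Fin.last (c + 1)) a) := by
    rw [facet_last]; exact cl_of_lexM K (fun i => hpos _) hinit
  have hcap : a 0 - 1 ≤ ∑ i : Fin c, (a i.succ.castSucc - 1) := by
    have h1 := single_le_sum (fun i _ => Nat.zero_le (a i.succ.castSucc - 1))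
      (mem_univ (⟨0, by omega⟩ : Fin c))
    have h2 : a 0 ≤ a (Fin.castSucc (Fin.succ (⟨0, by omega⟩ : Fin c))) := ha.mono (Fin.zero_le _)
    omega
  set a' : Fin (c + 1) → ℕ := fun i => a i.castSucc with ha'
  set L0 := Fin.last (c + 1)
  set s := ∑ i, (a' i - 1) with hs
  have hsD : s ≤ a L0 := ha.last_ge hc
  have hsa : ∑ i, (a i - 1) = s + (a L0 - 1) := Fin.sum_univ_castSucc _
  intro L hk hreg
  obtain ⟨L', φ, rfl, hk', hφk⟩ : ∃ L' φ, L = L' ++ [φ] ∧ L'.map GForm.k = List.ofFn a' ∧
      φ.k = a L0 := by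
    rw [List.ofFn_succ', List.concat_eq_append, List.map_eq_append_iff] at hk
    obtain ⟨L', l2, rfl, h1, h2⟩ := hk
    obtain ⟨φ, rfl, h3⟩ := List.map_eq_singleton_iff.mp h2
    exact ⟨L', φ, rfl, h1, h3⟩
  have hlen : L'.length = c + 1 := by simpa using congrArg List.length hk'
  obtain ⟨hreg', hφz, -⟩ := (regL_append _ _ _).mp hreg
  set G := idl ⊥ L' with hGdef
  have hG : Homog G := Homog.bot.idl _
  obtain ⟨l, hl, hl0, hlz⟩ := exists_nzd_linear (ι := Unit) (fun _ => G) (fun _ => hG)
    (fun _ e => noSoc_regL (c + 1) (c + 2) L' hlen (by omega) hreg' e (by omega)) (by omega)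
  obtain ⟨C⟩ := exists_cut hl hl0
  let v : GForm K (c + 2) := ⟨l, 1, hl, by norm_num⟩
  have hregv : RegL ⊥ (v :: L') :=
    (regL_perm (List.perm_append_comm (l₁ := L') (l₂ := [v])) Homog.bot
      ((regL_append _ _ _).mpr ⟨hreg', hlz (), trivial⟩)).1
  obtain ⟨hr, he⟩ := C.regL_image (L := L') (I := ⊥) hregv.2
  rw [C.image_bot] at hr he
  have hkC : (L'.map C.gform).map GForm.k = List.ofFn a' := by
    rw [List.map_map, ← hk']; rfl
  -- Hilbert function of the pair
  have hpow : ∀ j, colon G (l ^ j) = G := by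
    intro j
    induction j with
    | zero => ext x; simp [mem_colon]
    | succ j ih => rw [← colon_pow_succ, ih, (hlz ()).colon_eq]
  have hqG : ∀ d, hq G d = ∑ j ∈ range (d + 1), (Box a' j).card := by
    intro d
    rw [C.hq_sum hG hl hl0, ← sum_range_reflect (fun j => (Box a' j).card) (d + 1)]
    refine sum_congr rfl fun j _ => ?_
    rw [hpow, hGdef, ← he, hq_box hkC hr, show d + 1 - 1 - j = d - j by omega]
  set p := ∏ i, a' i
  have hqtop : ∀ d, s ≤ d → hq G d = p := fun d hd => by rw [hqG, sum_card_box a' hd]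
  have hqs : ∀ d, d + 1 = s → hq G d + 1 = p := fun d hd => by
    rw [← hqtop (d + 1) hd.ge, hqG, hqG, sum_range_succ _ (d + 1),
      card_box_rev (a := a') (d := d + 1) (d' := 0) (by omega),
      card_box_zero (fun i => hpos _)]
  have hbox : ∀ d, d < a L0 → (Box a d).card = hq G d := fun d hd => by
    rw [← hq_box hk hreg, idl_append, ← hGdef]
    exact hq_sup_of_lt hG φ.hom (hφk ▸ hd)
  have hF : ∀ j, hq (G ⊔ Ideal.span {φ.g}) (j + a L0) + hq G j = hq G (j + a L0) := by
    intro j
    rw [← hφk]
    exact (hq_sup_nzd hG φ.hom (ne_zero_of_nzd (ne_top_of_hq_zero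
      (regL_hq_zero Homog.bot hq_bot_zero L')) hφz) hφz j).symm
  -- below the last degree
  have hlow : ∀ J : Ideal (Poly K (c + 2)), Homog J → (∀ f ∈ L' ++ [φ], f.g ∈ J) →
      ∀ d, d + 1 < a L0 → Step a d (hq J d) (hq J (d + 1)) := by
    intro J hJ hmem d hd
    set U : ℕ → Ideal (Poly K (c + 1)) := fun j => C.image (colon J (l ^ j)) with hU
    have hUh : ∀ j, Homog (U j) := fun j =>
      C.homog_image (hJ.colon (isHomogeneous_linear_pow hl j))
    have hUm : ∀ j, ∀ f ∈ L'.map C.gform, f.g ∈ U j := by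
      intro j f hf
      obtain ⟨g, hg, rfl⟩ := List.mem_map.mp hf
      exact C.mem_image.mpr ⟨g.g, le_colon _ _ (hmem g (List.mem_append_left _ hg)), rfl⟩
    have hUmono : ∀ j e, hq (U (j + 1)) e ≤ hq (U j) e := fun j e => by
      refine hq_anti (C.image_mono fun x hx => ?_) e
      rw [mem_colon] at hx ⊢
      rw [pow_succ', mul_assoc]
      exact J.mul_mem_left _ hx
    let B : ℕ → Finset (Fin (c + 2) → ℕ) := fun e => (Box a e).filter fun f =>
      lrk a' (e - f L0) (L0.removeNth f) < hq (U (f L0)) (e - f L0)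
    have hB : ∀ e, e < a L0 → (B e).card = hq J e := by
      intro e he'
      rw [C.hq_sum hJ hl hl0, card_eq_sum_ones, sum_slices L0 (T := B e) (filter_subset _ _),
        show min (a L0) (e + 1) = e + 1 by omega]
      refine sum_congr rfl fun t ht => ?_
      rw [← card_eq_sum_ones]
      rw [show hq (C.image (colon J (l ^ t))) (e - t) =
        ((Box a' (e - t)).filter fun f => lrk a' (e - t) f < hq (U t) (e - t)).card from
        (card_lrk_lt (hq_le_card hkC hr (hUm t) _)).symm]
      congr 1
      ext f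
      have hfa : facet L0 a = a' := facet_last a
      simp only [slice, B, mem_filter, insertNth_mem_box, Fin.insertNth_apply_same,
        Fin.removeNth_insertNth, hfa]
      rw [Finset.mem_range] at ht
      constructor
      · exact fun h => ⟨h.1, h.2.2⟩
      · exact fun h => ⟨h.1, ⟨by omega, by omega, h.1⟩, h.2⟩
    have hup : Up a d (Box a d \ B d) (Box a (d + 1) \ B (d + 1)) := by
      refine ⟨sdiff_subset, sdiff_subset, fun f hf i hi => mem_sdiff.mpr ⟨hi, fun hiB => ?_⟩⟩
      obtain ⟨hfb, hfB⟩ := mem_sdiff.mp hf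
      have hge : hq (U (f L0)) (d - f L0) ≤ lrk a' (d - f L0) (L0.removeNth f) :=
        not_lt.mp fun h => hfB (mem_filter.mpr ⟨hfb, h⟩)
      have hlt := (mem_filter.mp hiB).2
      obtain ⟨h1, h2, h3⟩ := removeNth_mem_box L0 hfb
      obtain ⟨-, -, h4⟩ := removeNth_mem_box L0 hi
      rw [facet_last] at h3 h4
      rcases Fin.eq_self_or_eq_succAbove L0 i with rfl | ⟨j, rfl⟩
      · have hrem : L0.removeNth (f + Pi.single L0 1) = L0.removeNth f := by
          ext m; simp [Fin.removeNth, Fin.succAbove_ne L0 m]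
        simp only [Pi.add_apply, Pi.single_eq_same, hrem, Nat.add_sub_add_right] at hlt
        have := hUmono (f L0) (d - f L0)
        omega
      · have hval : (f + Pi.single (L0.succAbove j) 1 : Fin (c + 2) → ℕ) L0 = f L0 := by simp
        have hrem : L0.removeNth (f + Pi.single (L0.succAbove j) 1) =
            L0.removeNth f + Pi.single j 1 := by
          ext m; simp [Fin.removeNth, Pi.single_apply]
        rw [hval, hrem, show d + 1 - f L0 = d - f L0 + 1 by omega] at hlt h4
        exact (hinit _ hkC hr (U (f L0)) (hUh _) (hUm _) _ _ h3 j h4 hge).not_gt hlt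
    have hs' := step_box hcl0 hcll hcap hup
    have c0 := card_sdiff_add_card_eq_card (filter_subset (fun f : Fin (c + 2) → ℕ =>
      lrk a' (d - f L0) (L0.removeNth f) < hq (U (f L0)) (d - f L0)) (Box a d))
    have c1 := card_sdiff_add_card_eq_card (filter_subset (fun f : Fin (c + 2) → ℕ =>
      lrk a' (d + 1 - f L0) (L0.removeNth f) < hq (U (f L0)) (d + 1 - f L0)) (Box a (d + 1)))
    have b0 := hB d (by omega)
    have b1 := hB (d + 1) hd
    change (Box a d \ B d).card + (B d).card = _ at c0
    change (Box a (d + 1) \ B (d + 1)).card + (B (d + 1)).card = _ at c1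
    exact hs'.mono (by omega) (by omega)
  intro J hJ hmem d
  rcases lt_trichotomy (d + 1) (a L0) with hd | hd | hd
  · exact hlow J hJ hmem d hd
  · -- the degree of the last form
    intro e heb i _ hr'
    have hN := lrk_lt heb
    rcases Nat.eq_zero_or_pos (hq J d) with h0 | hpos'
    · rw [hq_succ_eq_zero h0]; exact Nat.zero_le _
    suffices hdrop : hq J (d + 1) < hq J d by
      have := lrk_succ hd e i
      omega
    by_contra hge
    have hns : ∀ i, i < s → NoSoc (G ⊔ Ideal.span {l}) i := fun i hi => by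
      refine C.noSoc ?_
      rw [hGdef, ← he]
      exact noSoc_regL (c + 1) (c + 1) _ (by simp [hlen]) le_rfl hr i fun _ => by
        rw [socTop_eq hkC]; exact hi
    have hd' : hq G d = p ∨ (hq G d + 1 = p ∧ d + 1 = s) := by
      rcases (show s ≤ d ∨ d + 1 = s by omega) with h | h
      · exact Or.inl (hqtop d h)
      · exact Or.inr ⟨hqs d h, h⟩
    have hGle : ∀ J' : Ideal (Poly K (c + 2)), (∀ f ∈ L' ++ [φ], f.g ∈ J') → G ≤ J' :=
      fun J' h => idl_le bot_le fun f hf => h f (List.mem_append_left _ hf)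
    have hFz : hq (G ⊔ Ideal.span {φ.g}) (s + (d + 1)) = 0 := by
      have := hF s
      rw [← hd, hqtop s le_rfl, hqtop (s + (d + 1)) (by omega)] at this
      omega
    have hbound : ∀ J' : Ideal (Poly K (c + 2)), Homog J' → (∀ f ∈ L' ++ [φ], f.g ∈ J') →
        hq J' d ≤ hq J' (d + 1) → 0 < hq J' d → hq J' d < hq G d →
        hq G d + 1 = p ∧ hq J' (d + 1) = hq J' d ∧ hq J' d ≤ s := fun J' _ h1 h2 h3 h4 =>
      junction hG hl hl0 (hlz ()) hns (hGle J' h1) (by rw [hd, ← hφk]; exact φ.hom)
        (h1 φ (by simp)) (hqtop _ (by omega)) (hqtop _ (by omega)) hFz hd' h2 h3 h4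
    have hlt : hq J d < hq G d := by
      rw [← hbox d (by omega)]
      omega
    obtain ⟨e1, e2, e3⟩ := hbound J hJ hmem (not_lt.mp hge) hpos' hlt
    have hds : d + 1 = s := by
      rcases hd' with h | ⟨-, h⟩
      · omega
      · exact h
    obtain ⟨J', hJ', hmem', hlink⟩ := exists_linked hpos hk hreg hJ hmem
    have k0 := hlink d (d + 1) (by omega)
    have k1 := hlink (d + 1) d (by omega)
    have b1 : (Box a (d + 1)).card = (Box a d).card :=
      card_box_rev (by omega)
    rw [b1] at k1
    rw [hbox d (by omega)] at k0 k1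
    obtain ⟨-, -, e3'⟩ := hbound J' hJ' hmem' (by omega) (by omega) (by omega)
    have := prod_large (c + 1) a' hc fun i => ha.two _
    change _ ≤ p at this
    omega
  · exact step_high hpos hk hreg hJ hmem fun J' hJ' hmem' e he' =>
      hlow J' hJ' hmem' e (by omega)

/-- Three variables. -/
theorem lexM_three [IsAlgClosed K] {a : Fin 3 → ℕ} (ha : 2 ≤ a 0) (hab : a 0 ≤ a 1)
    (hbc : a 1 ≤ a 2) : LexM K a := by
  intro L hk hreg J hJ hmem d e he i hi hr
  have hk3 : L.map GForm.k = [a 0, a 1, a 2] := by rw [hk]; simp [List.ofFn_succ]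
  obtain ⟨A, B, C, rfl⟩ : ∃ A B C, L = [A, B, C] :=
    List.length_eq_three.mp (by simpa using congrArg List.length hk3)
  · simp only [List.map_cons, List.map_nil, List.cons.injEq, and_true] at hk3
    obtain ⟨hA, hB, hC⟩ := hk3
    have hc := cond_every hJ hreg (hmem A (by simp)) (hmem B (by simp)) (hmem C (by simp))
      (by omega) (by omega) (by omega) d
    rw [hA, hB, hC] at hc
    have hbr : ∀ (k : ℕ) (f : Fin 3 → ℕ), f ∈ Box a k →
        (f 0, f 1) ∈ boxSet (a 0) (a 1) (a 2) k ∧
          lrk a k f = brank (a 0) (a 1) (a 2) k (f 0, f 1) := by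
      intro k f hf
      have hlt : ∀ g, g ∈ Box a k → (toLex g < toLex f ↔ pairLT (g 0, g 1) (f 0, f 1)) := by
        intro g hg
        have h1 := (mem_box.mp hg).2
        have h2 := (mem_box.mp hf).2
        rw [Fin.sum_univ_three] at h1 h2
        constructor
        · intro h
          obtain ⟨m, hm, hlt⟩ := lt_exists h
          fin_cases m
          · exact Or.inl hlt
          · exact Or.inr ⟨hm 0 (by decide), hlt⟩
          · have := hm 0 (by decide); have := hm 1 (by decide)
            simp only [Fin.reduceFinMk] at hlt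
            omega
        · rintro (h | ⟨h, h'⟩)
          · exact lt_of_first 0 (fun j hj => absurd hj (Fin.not_lt_zero _)) h
          · refine lt_of_first 1 (fun j hj => ?_) h'
            obtain rfl : j = 0 := by omega
            exact h
      have hmem' : ∀ g, g ∈ Box a k → (g 0, g 1) ∈ boxSet (a 0) (a 1) (a 2) k := by
        intro g hg
        obtain ⟨h1, h2⟩ := mem_box.mp hg
        rw [Fin.sum_univ_three] at h2
        rw [mem_boxSet]
        have := h1 0; have := h1 1; have := h1 2
        simp only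
        omega
      refine ⟨hmem' f hf, ?_⟩
      refine card_nbij' (fun g => (g 0, g 1)) (fun q => ![q.1, q.2, k - q.1 - q.2]) ?_ ?_ ?_ ?_
      · intro g hg
        simp only [mem_coe, Finset.mem_filter] at hg ⊢
        exact ⟨hmem' g hg.1, (hlt g hg.1).mp hg.2⟩
      · intro q hq
        simp only [mem_coe, Finset.mem_filter] at hq ⊢
        have hq' := mem_boxSet.mp hq.1
        have hb : ![q.1, q.2, k - q.1 - q.2] ∈ Box a k := by
          rw [mem_box, Fin.forall_fin_succ, Fin.forall_fin_two, Fin.sum_univ_three]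
          simp
          omega
        exact ⟨hb, (hlt _ hb).mpr (by simpa using hq.2)⟩
      · intro g hg
        simp only [mem_coe, Finset.mem_filter] at hg
        have := (mem_box.mp hg.1).2
        rw [Fin.sum_univ_three] at this
        ext m
        fin_cases m <;> simp
        omega
      · intro q _
        simp
    obtain ⟨m1, r1⟩ := hbr d e he
    obtain ⟨m2, r2⟩ := hbr (d + 1) _ hi
    rw [r2]
    refine hc _ m2 _ m1 ?_ (r1 ▸ hr)
    fin_cases i <;> simp [Div]

theorem lexM_good [IsAlgClosed K] :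
    ∀ (c : ℕ) (a : Fin c → ℕ), Good a → LexM K a := by
  intro c
  induction c with
  | zero => intro a h; exact absurd h.three (by omega)
  | succ c ih =>
    intro a h
    rcases (show c = 2 ∨ 3 ≤ c by have := h.three; omega) with rfl | hc
    · exact lexM_three (h.two 0) (h.mono (by decide)) (h.mono (by decide))
    · obtain ⟨c, rfl⟩ : ∃ m, c = m + 1 := ⟨c - 1, by omega⟩
      exact lexM_step h hc (ih _ (h.init hc)) (ih _ (h.tail hc))

end

end Vale.Agent.P200.Chain
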